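import Vale.Agent.P096.III.Frame.Sched

/-!
# P096, type III Frame: flattening of contractions gives `Flat`, dense away families give `Trunc`
-/

namespace Vale.Agent.P096.III.Frame

open scoped InnerProductSpace Topology
open Vale.Agent.P096.III.Tensor

universe u

variable {H : Type u} [NormedAddCommGroup H] [InnerProductSpace ℂ H] [CompleteSpace H]
  {d : ℕ → ℕ} [∀ n, NeZero (d n)] {c : ∀ n, Fin (d n) → ℝ} {N : VonNeumannAlgebra H}

theorem free_of_away {n₀ n : ℕ} {T : Big (Cfg d) H →L[ℂ] Big (Cfg d) H} (h : Away n₀ T)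
    (hn : n₀ ≤ n) : (legSlots c N).Free T n ∧ (legSlots c N).FreeR T n :=
  ⟨fun _ => h n hn _, fun _ => h n hn _⟩

theorem away_star {n₀ : ℕ} {T : Big (Cfg d) H →L[ℂ] Big (Cfg d) H} (h : Away n₀ T) :
    Away n₀ (star T) := fun n hn A => by
  have := (h n hn (star A)).star_star
  rwa [← map_star, star_star] at this

/-- A defect passes to the adjoints. -/
theorem norm_star_sub {K : Type*} [NormedAddCommGroup K] [InnerProductSpace ℂ K] [CompleteSpace K]
    {M : VonNeumannAlgebra K} {v : K} {U U' : K →L[ℂ] K} (hU : U ∈ M)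
    (hu : U ∈ unitary (K →L[ℂ] K)) (hU' : U' ∈ M.commutant) (hu' : U' ∈ unitary (K →L[ℂ] K)) :
    ‖star U v - star U' v‖ = ‖U v - U' v‖ := by
  rw [← norm_app hu (star U v - star U' v), map_sub, app_star_app hu, comm_app hU (star_mem hU'),
    ← norm_app hu' (v - star U' (U v)), map_sub, app_star_app hu', norm_sub_rev]

/-- Flattening of contractions. -/
theorem flat_of {Ω : H} (h : ∀ (S : Finset ℕ) (y : Big (Cfg d) H →L[ℂ] Big (Cfg d) H),
      y ∈ tens (legsG c) N → star y = y → ‖y‖ ≤ 1 →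
      (∀ n ∈ S, ∀ A, Commute (siteL c H n A) y) → (∃ n₁, ∀ n, n₁ ≤ n → ∀ A, Commute (siteL c H n A) y) →
      ∀ η δ : ℝ, 0 < η → 0 < δ →
        ∃ (r n₀ : ℕ) (U : Fin r → Big (Cfg d) H →L[ℂ] Big (Cfg d) H) (z : H →L[ℂ] H),
          0 < r ∧ InCentre N z ∧ ‖z‖ ≤ 1 ∧
          (∀ s, U s ∈ tens (legsG c) N ∧ U s ∈ unitary (Big (Cfg d) H →L[ℂ] Big (Cfg d) H) ∧
            Away n₀ (U s) ∧ (∀ n ∈ S, ∀ A, Commute (siteL c H n A) (U s)) ∧
            ∃ U₁ ∈ (tens (legsG c) N).commutant,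
              U₁ ∈ unitary (Big (Cfg d) H →L[ℂ] Big (Cfg d) H) ∧ Away n₀ U₁ ∧
                ‖U s (vac (Cfg d) Ω) - U₁ (vac (Cfg d) Ω)‖ ≤ δ) ∧
          ‖(((r : ℂ)⁻¹ • ∑ s, star (U s) * y * U s) - amp (Cfg d) H z) (vac (Cfg d) Ω)‖ ≤ η) :
    Flat (legSlots c N) (vac (Cfg d) Ω) := by
  intro S a ha has haS hafar η δ hη hδ
  rcases eq_or_ne a 0 with rfl | ha0
  · refine ⟨1, 0, fun _ => 1, 0, one_pos, fun _ => ⟨one_mem _, Submonoid.one_mem _,
      fun _ _ _ => Commute.one_right _, fun _ _ _ => Commute.one_right _, 1, one_mem _,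
      Submonoid.one_mem _, fun _ _ _ => Commute.one_right _, by simpa using hδ.le⟩,
      ⟨zero_mem _, zero_mem _⟩, le_rfl, by simpa using hη.le⟩
  set t : ℝ := ‖a‖ with ht
  have ht0 : 0 < t := norm_pos_iff.2 ha0
  set y := ((t⁻¹ : ℝ) : ℂ) • a with hy
  obtain ⟨n₁, hn₁⟩ := hafar
  obtain ⟨r, n₀, U, z, hr, hz, hz1, hU, hUb⟩ := h S y ((tens (legsG c) N).toStarSubalgebra.smul_mem ha _)
    (by rw [hy, star_smul, has, Complex.star_def, Complex.conj_ofReal])
    (by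
      rw [hy, norm_smul, Complex.norm_real, Real.norm_of_nonneg (by positivity),
        inv_mul_le_iff₀ ht0, mul_one])
    (fun n hn A => (haS n hn A).smul_right _) ⟨n₁, fun n hn A => (hn₁ n hn A).smul_right _⟩
    (η / (2 * t)) δ (by positivity) hδ
  set Z := amp (Cfg d) H ((t : ℂ) • z) with hZ
  have hzc : InCentre N ((t : ℂ) • z) :=
    ⟨N.toStarSubalgebra.smul_mem hz.1 _, N.commutant.toStarSubalgebra.smul_mem hz.2 _⟩
  have hU' : ∀ s, star (U s) ∈ tens (legsG c) N ∧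
      star (U s) ∈ unitary (Big (Cfg d) H →L[ℂ] Big (Cfg d) H) ∧
      (∀ n ∈ S, (legSlots c N).Free (star (U s)) n) ∧
      (∀ n, n₀ ≤ n → (legSlots c N).Free (star (U s)) n) ∧
      ∃ U' ∈ (tens (legsG c) N).commutant, U' ∈ unitary (Big (Cfg d) H →L[ℂ] Big (Cfg d) H) ∧
        (∀ n, n₀ ≤ n → (legSlots c N).FreeR U' n) ∧
        ‖star (U s) (vac (Cfg d) Ω) - U' (vac (Cfg d) Ω)‖ ≤ δ := fun s => by
    obtain ⟨h1, h2, h3, h4, U₁, h5, h6, h7, h8⟩ := hU s
    exact ⟨star_mem h1, Unitary.star_mem h2, fun n hn A => by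
        have := (h4 n hn (star A)).star_star
        rwa [← map_star, star_star] at this,
      fun n hn => (free_of_away (away_star h3) hn).1, star U₁, star_mem h5, Unitary.star_mem h6,
      fun n hn => (free_of_away (away_star h7) hn).2, (norm_star_sub h1 h2 h5 h6).trans_le h8⟩
  have hy' : a = (t : ℂ) • y := by
    rw [hy, smul_smul, ← Complex.ofReal_mul, mul_inv_cancel₀ ht0.ne', Complex.ofReal_one, one_smul]
  have e : (((r : ℂ)⁻¹ • ∑ s, star (U s) * a * star (star (U s))) - Z) =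
      (t : ℂ) • (((r : ℂ)⁻¹ • ∑ s, star (U s) * y * U s) - amp (Cfg d) H z) := by
    rw [hZ, map_smul, smul_sub, smul_comm, Finset.smul_sum (r := (t : ℂ))]
    simp only [star_star, hy', mul_smul_comm, smul_mul_assoc]
  have hb : ‖(((r : ℂ)⁻¹ • ∑ s, star (U s) * a * star (star (U s))) - Z) (vac (Cfg d) Ω)‖ ≤ η / 2 := by
    rw [e, smul_apply, norm_smul, Complex.norm_real, Real.norm_of_nonneg ht0.le]
    calc t * _ ≤ t * (η / (2 * t)) := mul_le_mul_of_nonneg_left hUb ht0.le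
      _ = η / 2 := by field_simp
  have hZn : ‖Z‖ ≤ t := by
    rw [hZ, norm_amp, norm_smul, Complex.norm_real, Real.norm_of_nonneg ht0.le]
    exact (mul_le_mul_of_nonneg_left hz1 ht0.le).trans_eq (mul_one t)
  exact ⟨r, n₀, fun s => star (U s), Z, hr, hU',
    ⟨amp_mem (isUGroup_legsG c) hzc.1, amp_mem_commutant c hzc.2⟩, hZn, hb.trans (by linarith)⟩

/-- A dense family of away contractions gives `Trunc`. -/
theorem trunc_of {Ω : H} (h : ∀ y : Big (Cfg d) H →L[ℂ] Big (Cfg d) H, y ∈ tens (legsG c) N →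
      star y = y → ‖y‖ ≤ 1 → ∀ ε : ℝ, 0 < ε →
        ∃ y' ∈ tens (legsG c) N, star y' = y' ∧ ‖y'‖ ≤ 1 ∧ (∃ n₀, Away n₀ y') ∧
          ‖y' (vac (Cfg d) Ω) - y (vac (Cfg d) Ω)‖ ≤ ε) :
    Trunc (legSlots c N) (vac (Cfg d) Ω) := by
  intro x hx hxs η hη
  rcases eq_or_ne x 0 with rfl | hx0
  · exact ⟨0, zero_mem _, star_zero _, le_rfl, by simpa using hη.le, 0,
      fun _ _ _ => Commute.zero_right _⟩
  have ht0 : 0 < ‖x‖ := norm_pos_iff.2 hx0
  set y := ((‖x‖⁻¹ : ℝ) : ℂ) • x with hy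
  have hy' : x = (‖x‖ : ℂ) • y := by
    rw [hy, smul_smul, ← Complex.ofReal_mul, mul_inv_cancel₀ ht0.ne', Complex.ofReal_one, one_smul]
  obtain ⟨y', hm, hs, hn, ⟨n₀, haw⟩, he⟩ := h y ((tens (legsG c) N).toStarSubalgebra.smul_mem hx _)
    (by rw [hy, star_smul, hxs, Complex.star_def, Complex.conj_ofReal])
    (by rw [hy, norm_smul, Complex.norm_real, Real.norm_of_nonneg (by positivity),
      inv_mul_cancel₀ ht0.ne']) (η / ‖x‖) (by positivity)
  refine ⟨(‖x‖ : ℂ) • y', (tens (legsG c) N).toStarSubalgebra.smul_mem hm _,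
    by rw [star_smul, hs, Complex.star_def, Complex.conj_ofReal], ?_, ?_, n₀,
    fun n hn A => ((free_of_away haw hn).1 A).smul_right _⟩
  · rw [norm_smul, Complex.norm_real, Real.norm_of_nonneg ht0.le]
    exact mul_le_of_le_one_right ht0.le hn
  · have e : ((‖x‖ : ℂ) • y' - x) = (‖x‖ : ℂ) • (y' - y) := by rw [smul_sub, ← hy']
    rw [e, smul_apply, sub_apply, norm_smul, Complex.norm_real,
      Real.norm_of_nonneg ht0.le, ← le_div_iff₀' ht0]
    exact he

end Vale.Agent.P096.III.Frame
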