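import Vale.Agent.P096.III.Frame.Adapt
import Vale.Agent.P096.III.Bic.Trunc

/-!
# P096, type III Frame: truncation on the legs
-/

namespace Vale.Agent.P096.III.Frame

open scoped InnerProductSpace Topology
open Filter
open Vale.Agent.P096.III.Tensor

universe u

variable {H : Type u} [NormedAddCommGroup H] [InnerProductSpace ℂ H] [CompleteSpace H]
  {d : ℕ → ℕ} [∀ n, NeZero (d n)] (c : ∀ n, Fin (d n) → ℝ) (N : VonNeumannAlgebra H)

/-- Away elements are dense. -/
theorem trunc_legs (Ω : H) : Trunc (legSlots c N) (vac (Cfg d) Ω) := by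
  refine trunc_of fun y hy hys hy1 ε hε => ?_
  obtain ⟨E, hE1, hE2, hE3⟩ := Bic.exists_away_approx (isUGroup_legsG c) hy
  obtain ⟨m, hm⟩ := Metric.tendsto_atTop.1 (hE2 (vac (Cfg d) Ω)) ε hε
  have h := hm m le_rfl
  rw [dist_eq_norm] at h
  exact ⟨E m, (hE1 m).1, hE3 hys m, (hE1 m).2.2.trans hy1, ⟨m, (hE1 m).2.1⟩, h.le⟩

/-- Flattening on the legs gives the Frame module. -/
theorem stmtFrame_of_flat
    (hF : ∀ (H : Type u) [NormedAddCommGroup H] [InnerProductSpace ℂ H] [CompleteSpace H]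
      [TopologicalSpace.SeparableSpace H] (N : VonNeumannAlgebra H) (Ω : H), P132.IsCS N Ω →
      Flat (legSlots lc N) (vac (Cfg ld) Ω)) : Iface.StmtFrame.{u} :=
  stmtFrame_of fun H _ _ _ _ N Ω hΩ => ⟨hF H N Ω hΩ, trunc_legs lc N Ω⟩

end Vale.Agent.P096.III.Frame
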