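import Vale.Agent.P096.III.Frame.Geom
import Vale.Agent.P096.III.Frame.Away
import Vale.Agent.P096.III.Bic.Strong
import Vale.Agent.P132.Modular.Main

/-!
# P096, type III Frame: flattening on the legs

The shortest limit of means over almost centralising unitaries commutes with every leg by flips,
hence is amplified, and its base has the transfer property, hence is central.
-/

namespace Vale.Agent.P096.III.Frame

open scoped InnerProductSpace Topology
open Filter
open Vale.Agent.P132 (IsCS ModData cent2 comm2 cvec IsUnitaryMat)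
open Vale.Agent.P096.III.Tensor

universe u

section Abstract

variable {K : Type u} [NormedAddCommGroup K] [InnerProductSpace ℂ K] [CompleteSpace K]
  (M : VonNeumannAlgebra K) (v : K) (Q : ℕ → (K →L[ℂ] K) → Prop) (P : (K →L[ℂ] K) → Prop)

/-- A supported unitary that nearly has a supported witness. -/
def Adm (δ : ℝ) (U : K →L[ℂ] K) : Prop :=
  U ∈ M ∧ U ∈ unitary (K →L[ℂ] K) ∧ P U ∧
    ∃ n₀, Q n₀ U ∧ ∃ U₁ ∈ M.commutant, U₁ ∈ unitary (K →L[ℂ] K) ∧ Q n₀ U₁ ∧ ‖U v - U₁ v‖ ≤ δ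

/-- Means of conjugates. -/
def Means (a : K →L[ℂ] K) (δ : ℝ) (T : K →L[ℂ] K) : Prop :=
  ∃ (r : ℕ) (U : Fin r → K →L[ℂ] K), 0 < r ∧ (∀ i, Adm M v Q P δ (U i)) ∧
    T = (r : ℂ)⁻¹ • ∑ i, star (U i) * a * U i

variable {M v Q P} {δ δ' : ℝ} {U V T a : K →L[ℂ] K}

theorem Adm.mono (h : Adm M v Q P δ U) (hd : δ ≤ δ') : Adm M v Q P δ' U := by
  obtain ⟨h1, h2, h3, n₀, h4, U₁, h5, h6, h7, h8⟩ := h
  exact ⟨h1, h2, h3, n₀, h4, U₁, h5, h6, h7, h8.trans hd⟩

theorem Adm.mul (hQ : ∀ n m x, n ≤ m → Q n x → Q m x)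
    (hQm : ∀ n x y, Q n x → Q n y → Q n (x * y)) (hPm : ∀ x y, P x → P y → P (x * y))
    (h : Adm M v Q P δ U) (h' : Adm M v Q P δ' V) : Adm M v Q P (δ + δ') (U * V) := by
  obtain ⟨h1, h2, h3, n₀, h4, U₁, h5, h6, h7, h8⟩ := h
  obtain ⟨k1, k2, k3, m₀, k4, V₁, k5, k6, k7, k8⟩ := h'
  refine ⟨mul_mem h1 k1, mul_mem h2 k2, hPm _ _ h3 k3, max n₀ m₀,
    hQm _ _ _ (hQ _ _ _ (le_max_left _ _) h4) (hQ _ _ _ (le_max_right _ _) k4), V₁ * U₁,
    mul_mem k5 h5, mul_mem k6 h6,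
    hQm _ _ _ (hQ _ _ _ (le_max_right _ _) k7) (hQ _ _ _ (le_max_left _ _) h7), ?_⟩
  have e : (U * V) v - (V₁ * U₁) v = U (V v - V₁ v) + V₁ (U v - U₁ v) := by
    simp only [mul_apply_eq_comp, map_sub, comm_app h1 k5]
    abel
  rw [e]
  refine (norm_add_le _ _).trans ?_
  rw [norm_app h2, norm_app k6, add_comm]
  exact add_le_add h8 k8

theorem Means.mono (h : Means M v Q P a δ T) (hd : δ ≤ δ') : Means M v Q P a δ' T := by
  obtain ⟨r, U, hr, hU, e⟩ := h
  exact ⟨r, U, hr, fun i => (hU i).mono hd, e⟩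

theorem Means.of_fintype {ι : Type} [Fintype ι] [Nonempty ι] (U : ι → K →L[ℂ] K)
    (hU : ∀ i, Adm M v Q P δ (U i)) :
    Means M v Q P a δ ((Fintype.card ι : ℂ)⁻¹ • ∑ i, star (U i) * a * U i) := by
  refine ⟨Fintype.card ι, U ∘ (Fintype.equivFin ι).symm, Fintype.card_pos, fun i => hU _, ?_⟩
  congr 1
  exact (Equiv.sum_comp (Fintype.equivFin ι).symm fun i => star (U i) * a * U i).symm

theorem Means.mid (h : Means M v Q P a δ T) {T' : K →L[ℂ] K} (h' : Means M v Q P a δ T') :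
    Means M v Q P a δ ((2⁻¹ : ℂ) • (T + T')) := by
  obtain ⟨r, U, hr, hU, rfl⟩ := h
  obtain ⟨s, U', hs, hU', rfl⟩ := h'
  have : NeZero r := ⟨hr.ne'⟩
  have : NeZero s := ⟨hs.ne'⟩
  let W : (Fin r × Fin s) ⊕ (Fin r × Fin s) → K →L[ℂ] K :=
    Sum.elim (fun p => U p.1) fun p => U' p.2
  have h : Means M v Q P a δ _ := Means.of_fintype W (by
    rintro (p | p)
    · exact hU _
    · exact hU' _)
  convert h using 1
  simp only [W, Fintype.sum_sum_type, Fintype.sum_prod_type, Sum.elim_inl, Sum.elim_inr,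
    Finset.sum_const, Finset.card_univ, Fintype.card_sum, Fintype.card_prod, Fintype.card_fin,
    smul_add, smul_smul, ← Finset.smul_sum, ← Nat.cast_smul_eq_nsmul ℂ]
  have hr' : (r : ℂ) ≠ 0 := Nat.cast_ne_zero.2 hr.ne'
  have hs' : (s : ℂ) ≠ 0 := Nat.cast_ne_zero.2 hs.ne'
  congr 1 <;> congr 1 <;> push_cast <;> field_simp <;> norm_num

theorem Means.conj (hQ : ∀ n m x, n ≤ m → Q n x → Q m x)
    (hQm : ∀ n x y, Q n x → Q n y → Q n (x * y)) (hPm : ∀ x y, P x → P y → P (x * y))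
    (h : Means M v Q P a δ T) (hV : Adm M v Q P δ' V) :
    Means M v Q P a (δ + δ') (star V * T * V) := by
  obtain ⟨r, U, hr, hU, rfl⟩ := h
  refine ⟨r, fun i => U i * V, hr, fun i => (hU i).mul hQ hQm hPm hV, ?_⟩
  rw [mul_smul_comm, smul_mul_assoc, Finset.mul_sum, Finset.sum_mul]
  simp only [star_mul, mul_assoc]

theorem Means.mem (ha : a ∈ M) (h : Means M v Q P a δ T) : T ∈ M := by
  obtain ⟨r, U, -, hU, rfl⟩ := h
  exact M.toStarSubalgebra.smul_mem
    (sum_mem fun i _ => mul_mem (mul_mem (star_mem (hU i).1) ha) (hU i).1) _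

theorem Means.norm_le (ha : ‖a‖ ≤ 1) (h : Means M v Q P a δ T) : ‖T‖ ≤ 1 := by
  obtain ⟨r, U, hr, hU, rfl⟩ := h
  rw [norm_smul, norm_inv, Complex.norm_natCast, inv_mul_le_iff₀ (Nat.cast_pos.2 hr), mul_one]
  refine (norm_sum_le _ _).trans ((Finset.sum_le_card_nsmul _ _ 1 fun i _ => ?_).trans (by simp))
  rw [CStarRing.norm_mul_mem_unitary _ (hU i).2.1,
    CStarRing.norm_mem_unitary_mul _ (Unitary.star_mem (hU i).2.1)]
  exact ha

theorem Means.star_eq (hs : star a = a) (h : Means M v Q P a δ T) : star T = T := by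
  obtain ⟨r, U, hr, hU, rfl⟩ := h
  rw [star_smul, star_inv₀, star_natCast, star_sum]
  exact congrArg _ (Finset.sum_congr rfl fun i _ => by
    rw [star_mul, star_mul, star_star, hs, mul_assoc])

theorem norm_conj_le (hV : Adm M v Q P δ V) (hT : T ∈ M) (hT1 : ‖T‖ ≤ 1) :
    ‖(star V * T * V) v‖ ≤ ‖T v‖ + δ := by
  obtain ⟨-, hu, -, _, -, V₁, hV₁, hV₁u, -, hd⟩ := hV
  rw [mul_apply_eq_comp, mul_apply_eq_comp, norm_app (Unitary.star_mem hu)]
  have e : T (V v) = V₁ (T v) + T (V v - V₁ v) := by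
    rw [map_sub, comm_app hT hV₁]; abel
  rw [e]
  refine (norm_add_le _ _).trans (add_le_add (norm_app hV₁u _).le ?_)
  exact (T.le_opNorm _).trans ((mul_le_of_le_one_left (norm_nonneg _) hT1).trans hd)

/-- The shortest limit of the means, and its invariance. -/
theorem exists_min (hcyc : ∀ w : K, ∀ η : ℝ, 0 < η → ∃ b ∈ M.commutant, ‖b v - w‖ ≤ η)
    (hv : ‖v‖ = 1) (hQ : ∀ n m x, n ≤ m → Q n x → Q m x)
    (hQm : ∀ n x y, Q n x → Q n y → Q n (x * y)) (hPm : ∀ x y, P x → P y → P (x * y))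
    (hP1 : P 1) (hQ1 : Q 0 1) (ha : a ∈ M) (has : star a = a) (han : ‖a‖ ≤ 1) :
    ∃ a₀ ∈ M, star a₀ = a₀ ∧ ‖a₀‖ ≤ 1 ∧
      (∀ η : ℝ, 0 < η → ∃ δ : ℝ, 0 < δ ∧ ∀ U, Adm M v Q P δ U →
        ‖(star U * a₀ * U - a₀) v‖ ≤ η) ∧
      ∃ T : ℕ → K →L[ℂ] K, (∀ k : ℕ, Means M v Q P a ((k : ℝ) + 1)⁻¹ (T k)) ∧
        ∀ w, Tendsto (fun k => T k w) atTop (𝓝 (a₀ w)) := by
  set d : ℕ → ℝ := fun k => ((k : ℝ) + 1)⁻¹ with hd
  have hd0 : ∀ k, 0 < d k := fun k => by simp only [hd]; positivity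
  have hdm : ∀ k j, k ≤ j → d j ≤ d k := fun k j h => by
    simp only [hd]
    gcongr
  have hdt : Tendsto d atTop (𝓝 0) := by
    simpa [hd, one_div] using tendsto_one_div_add_atTop_nhds_zero_nat (𝕜 := ℝ)
  set V : ℕ → Set ℝ := fun k => (fun T : K →L[ℂ] K => ‖T v‖ ^ 2) '' {T | Means M v Q P a (d k) T}
  have h1 : ∀ k, Means M v Q P a (d k) a := fun k =>
    ⟨1, fun _ => 1, one_pos, fun _ => ⟨one_mem M, Submonoid.one_mem _, hP1, 0, hQ1, 1, one_mem _,
      Submonoid.one_mem _, hQ1, by simpa using (hd0 k).le⟩, by simp⟩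
  have hne : ∀ k, (V k).Nonempty := fun k => ⟨_, a, h1 k, rfl⟩
  have hbb : ∀ k, BddBelow (V k) := fun k => ⟨0, by rintro _ ⟨T, -, rfl⟩; positivity⟩
  set m : ℕ → ℝ := fun k => sInf (V k) with hm
  have hmle : ∀ k T, Means M v Q P a (d k) T → m k ≤ ‖T v‖ ^ 2 := fun k T hT =>
    csInf_le (hbb k) ⟨T, hT, rfl⟩
  have hn1 : ∀ k T, Means M v Q P a (d k) T → ‖T v‖ ≤ 1 := fun k T hT =>
    (T.le_opNorm v).trans (by rw [hv, mul_one]; exact hT.norm_le han)
  have hmb : BddAbove (Set.range m) := ⟨1, by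
    rintro _ ⟨k, rfl⟩
    exact (hmle k a (h1 k)).trans (pow_le_one₀ (norm_nonneg _) (hn1 k a (h1 k)))⟩
  have hmm : Monotone m := fun k j hkj => csInf_le_csInf (hbb k) (hne j)
    (Set.image_mono fun T hT => Means.mono hT (hdm k j hkj))
  set L := ⨆ k, m k with hL
  have hlim : Tendsto m atTop (𝓝 L) := tendsto_atTop_ciSup hmm hmb
  have hmL : ∀ k, m k ≤ L := fun k => le_ciSup hmb k
  have hch : ∀ k, ∃ T, Means M v Q P a (d k) T ∧ ‖T v‖ ^ 2 ≤ L + d k := fun k => by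
    obtain ⟨_, ⟨T, hT, rfl⟩, h⟩ := exists_lt_of_csInf_lt (hne k)
      (lt_add_of_pos_right (sInf (V k)) (hd0 k))
    exact ⟨T, hT, h.le.trans (add_le_add (hmL k) le_rfl)⟩
  choose T hT hTv using hch
  have par : ∀ k x y, Means M v Q P a (d k) x → Means M v Q P a (d k) y →
      ‖(x - y) v‖ ^ 2 ≤ 2 * ‖x v‖ ^ 2 + 2 * ‖y v‖ ^ 2 - 4 * m k := fun k x y hx hy => by
    have h := hmle k _ (hx.mid hy)
    have hp := parallelogram_law_with_norm ℂ (x v) (y v)
    rw [smul_apply, norm_smul, norm_inv, Complex.norm_ofNat, add_apply] at h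
    rw [sub_apply]
    nlinarith
  have hb : ∀ k j, k ≤ j → ‖T k v - T j v‖ ≤ √(4 * (L - m k) + 4 * d k) := fun k j hkj => by
    rw [← sub_apply]
    refine Real.le_sqrt_of_sq_le ?_
    have := par k _ _ (hT k) ((hT j).mono (hdm k j hkj))
    linarith [hTv k, hTv j, hdm k j hkj, hmL k]
  have hcau : CauchySeq fun k => T k v := by
    refine Metric.cauchySeq_iff'.2 fun e he => ?_
    have ht : Tendsto (fun k => √(4 * (L - m k) + 4 * d k)) atTop (𝓝 0) := by
      simpa using (((hlim.const_sub L).const_mul 4).add (hdt.const_mul 4)).sqrt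
    obtain ⟨k, hk⟩ := eventually_atTop.1 (ht.eventually (Iio_mem_nhds he))
    refine ⟨k, fun j hj => ?_⟩
    rw [dist_eq_norm, norm_sub_rev]
    exact lt_of_le_of_lt (hb k j hj) (hk k le_rfl)
  obtain ⟨a₀, ha₀, ha₀n, ha₀t, ha₀s⟩ :=
    Bic.exists_strong_limit hcyc (fun k => (hT k).mem ha) (fun k => (hT k).norm_le han) hcau
  refine ⟨a₀, ha₀, ha₀s fun k => (hT k).star_eq has, ha₀n, fun η hη => ?_, T, hT, ha₀t⟩
  obtain ⟨k, hk⟩ := eventually_atTop.1 ((show Tendsto (fun k => 4 * (L - m k)) atTop (𝓝 0) by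
    simpa using (hlim.const_sub L).const_mul 4).eventually (Iio_mem_nhds (show 0 < η ^ 2 / 2 by positivity)))
  set δ := min (min (d k / 2) 1) (η ^ 2 / 12) with hδ
  have hδ0 : 0 < δ := lt_min (lt_min (half_pos (hd0 k)) one_pos) (by positivity)
  refine ⟨δ, hδ0, fun U hU => ?_⟩
  have ev : ∀ᶠ j in atTop, ‖(star U * T j * U - T j) v‖ ^ 2 ≤ η ^ 2 + 4 * d j := by
    filter_upwards [eventually_ge_atTop k,
      hdt.eventually (Iic_mem_nhds (half_pos (hd0 k)))] with j hkj hj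
    have hδk : δ ≤ d k / 2 := (min_le_left _ _).trans (min_le_left _ _)
    have h2 := par k _ _ (((hT j).conj hQ hQm hPm hU).mono (by linarith [show d j ≤ d k / 2 from hj]))
      ((hT j).mono (hdm k j hkj))
    have h3 := norm_conj_le hU ((hT j).mem ha) ((hT j).norm_le han)
    have h4 : ‖(star U * T j * U) v‖ ^ 2 ≤ ‖T j v‖ ^ 2 + 3 * δ := by
      have h5 := pow_le_pow_left₀ (norm_nonneg _) h3 2
      have h6 := hn1 j _ (hT j)
      have h7 : δ ≤ 1 := (min_le_left _ _).trans (min_le_right _ _)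
      nlinarith [norm_nonneg (T j v)]
    have h8 : δ ≤ η ^ 2 / 12 := min_le_right _ _
    have h9 : 4 * (L - m k) < η ^ 2 / 2 := hk k le_rfl
    linarith [hTv j]
  have t1 : Tendsto (fun j => ‖(star U * T j * U - T j) v‖ ^ 2) atTop
      (𝓝 (‖(star U * a₀ * U - a₀) v‖ ^ 2)) := by
    simp only [sub_apply, mul_apply_eq_comp]
    exact ((((star U).continuous.tendsto _).comp (ha₀t (U v))).sub (ha₀t v)).norm.pow 2
  have t2 : Tendsto (fun j => η ^ 2 + 4 * d j) atTop (𝓝 (η ^ 2)) := by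
    simpa using (hdt.const_mul 4).const_add (η ^ 2)
  exact (pow_le_pow_iff_left₀ (norm_nonneg _) hη.le two_ne_zero).1 (le_of_tendsto_of_tendsto t1 t2 ev)

end Abstract

variable {H : Type u} [NormedAddCommGroup H] [InnerProductSpace ℂ H] [CompleteSpace H]
  {d : ℕ → ℕ} [∀ n, NeZero (d n)] {c : ∀ n, Fin (d n) → ℝ} {N : VonNeumannAlgebra H} {Ω : H}

theorem commute_unitL_ne {n m : ℕ} (h : n ≠ m) (a b : Fin (d n)) (a' b' : Fin (d m)) :
    Commute (unitL c H n a b) (unitL c H m a' b') := commute_site h _ _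

theorem commute_unitL_unitR {n m : ℕ} (a b : Fin (d n)) (a' b' : Fin (d m)) :
    Commute (unitL c H n a b) (unitR c H m a' b') := by
  rcases eq_or_ne n m with rfl | h
  · exact (commute_legL_legR (c n) (Matrix.single a b 1) (Matrix.single a' b' 1)).map
      (site (κ := Cfg d) H n)
  · exact commute_site h _ _

theorem flip_algebra {E : Type*} [NormedAddCommGroup E] [NormedSpace ℂ E] {A B C D : E →L[ℂ] E}
    {v : E} {α β : ℂ} (hβ : β ≠ 0) (e1 : β • B v = α • C v) (e2 : α • A v = β • D v)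
    (c1 : Commute A C) (c2 : Commute C D) : A (B v) = D (C v) := by
  refine smul_right_injective E hβ ?_
  have h1 : A (C v) = C (A v) := congrArg (fun f : E →L[ℂ] E => f v) c1.eq
  have h2 : C (D v) = D (C v) := congrArg (fun f : E →L[ℂ] E => f v) c2.eq
  show β • A (B v) = β • D (C v)
  rw [← map_smul, e1, map_smul, h1, ← map_smul, e2, map_smul, h2]

/-- A commutator moved by an exchange. -/
theorem move_bound {E : Type u} [NormedAddCommGroup E] [InnerProductSpace ℂ E] [CompleteSpace E]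
    {A : VonNeumannAlgebra E} {v : E} {F F₁ e₀ e₁ a b f₁ : E →L[ℂ] E} {α β : ℝ} (hα : 0 < α)
    (hβ : 0 ≤ β) (hFu : F ∈ unitary (E →L[ℂ] E)) (hF₁u : F₁ ∈ unitary (E →L[ℂ] E))
    (hF₁ : F₁ ∈ A.commutant) (hFv : F v = F₁ v) (hsw : F * e₀ = e₁ * F) (hFa : Commute F a)
    (ha : a ∈ A) (hb : b ∈ A) (he₁ : e₁ ∈ A) (hab : e₁ * a - a * e₁ = e₁ * b - b * e₁)
    (hf₁ : f₁ ∈ A.commutant) (hrel : (α : ℂ) • e₁ v = (β : ℂ) • f₁ v)
    (he : ∀ w, ‖e₁ w‖ ≤ ‖w‖) (hf : ∀ w, ‖f₁ w‖ ≤ ‖w‖) :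
    ‖(e₀ * a - a * e₀) v‖ ≤ (β / α + 1) * ‖b v‖ := by
  have h0 : F * (e₀ * a - a * e₀) = (e₁ * a - a * e₁) * F := by
    rw [mul_sub, sub_mul, ← mul_assoc, ← mul_assoc, hsw, hFa.eq, mul_assoc a F, hsw,
      mul_assoc e₁ F, hFa.eq]
    simp only [mul_assoc]
  have h1 : ‖(e₀ * a - a * e₀) v‖ = ‖(e₁ * b - b * e₁) v‖ := by
    rw [← norm_app hFu, ← mul_apply_eq_comp, h0, mul_apply_eq_comp, hFv,
      comm_app (sub_mem (mul_mem he₁ ha) (mul_mem ha he₁)) hF₁, norm_app hF₁u, hab]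
  have h2 : ‖b (e₁ v)‖ ≤ β / α * ‖b v‖ := by
    have h := congrArg (fun w => ‖b w‖) hrel
    simp only [map_smul, norm_smul, Complex.norm_real, Real.norm_of_nonneg hα.le,
      Real.norm_of_nonneg hβ] at h
    rw [comm_app hb hf₁] at h
    rw [div_mul_eq_mul_div, le_div_iff₀' hα, h]
    exact mul_le_mul_of_nonneg_left (hf _) hβ
  rw [h1, sub_apply, mul_apply_eq_comp, mul_apply_eq_comp]
  refine (norm_sub_le _ _).trans ?_
  linarith [he (b v)]

/-- A partial isometry is a contraction. -/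
theorem norm_app_le_of_sq {E : Type u} [NormedAddCommGroup E] [InnerProductSpace ℂ E]
    [CompleteSpace E] {g : E →L[ℂ] E} (h : (star g * g) * (star g * g) = star g * g) (w : E) :
    ‖g w‖ ≤ ‖w‖ := by
  refine (g.le_opNorm w).trans (mul_le_of_le_one_left (norm_nonneg _) ?_)
  have h4 := CStarRing.norm_star_mul_self (x := star g * g)
  rw [show star (star g * g) = star g * g by rw [star_mul, star_star], h,
    CStarRing.norm_star_mul_self] at h4
  by_contra hlt
  push Not at hlt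
  nlinarith [mul_lt_mul'' hlt hlt zero_le_one zero_le_one]

/-- The exchange of two systems of matrix units. -/
theorem exchange {A : Type*} [Ring A] [StarRing A] {ι κ' : Type*} [Fintype ι] [Fintype κ']
    [DecidableEq ι] [DecidableEq κ'] (e : ι ≃ κ') {u : ι → ι → A} {w : κ' → κ' → A}
    (hus : ∀ a b, star (u a b) = u b a) (hws : ∀ a b, star (w a b) = w b a)
    (hum : ∀ a b a' b', u a b * u a' b' = if b = a' then u a b' else 0)
    (hwm : ∀ a b a' b', w a b * w a' b' = if b = a' then w a b' else 0)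
    (hu1 : ∑ a, u a a = 1) (hw1 : ∑ a, w a a = 1) (hcm : ∀ a b a' b', Commute (u a b) (w a' b')) :
    (∑ a, ∑ b, u a b * w (e b) (e a)) ∈ unitary A ∧
      ∀ p q, (∑ a, ∑ b, u a b * w (e b) (e a)) * u p q =
        w (e p) (e q) * ∑ a, ∑ b, u a b * w (e b) (e a) := by
  set F := ∑ a, ∑ b, u a b * w (e b) (e a) with hF
  have hFs : star F = F := by
    simp only [hF, star_sum, star_mul, hus, hws]
    rw [Finset.sum_comm]
    exact Finset.sum_congr rfl fun b _ => Finset.sum_congr rfl fun a _ => (hcm _ _ _ _).eq.symm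
  have hswap : ∀ p q, F * u p q = w (e p) (e q) * F := fun p q => by
    simp only [hF, Finset.sum_mul, Finset.mul_sum]
    refine Finset.sum_congr rfl fun a _ => ?_
    rw [Finset.sum_eq_single p (fun b _ hb => ?_) (by simp),
      Finset.sum_eq_single q (fun b _ hb => ?_) (by simp)]
    · rw [mul_assoc, ← (hcm p q (e p) (e a)).eq, ← mul_assoc, hum, if_pos rfl, ← mul_assoc,
        ← (hcm a q (e p) (e q)).eq, mul_assoc, hwm, if_pos rfl]
    · rw [← mul_assoc, ← (hcm a b (e p) (e q)).eq, mul_assoc, hwm,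
        if_neg (fun h => hb (e.injective h).symm), mul_zero]
    · rw [mul_assoc, ← (hcm p q (e b) (e a)).eq, ← mul_assoc, hum, if_neg hb, zero_mul]
  have hFF : F * F = 1 := by
    have key : ∀ a b, w (e a) (e b) * F * w (e b) (e a) = u b b * w (e a) (e a) := fun a b => by
      simp only [hF, Finset.mul_sum, Finset.sum_mul]
      rw [Finset.sum_eq_single b (fun x _ hx => ?_) (by simp),
        Finset.sum_eq_single b (fun y _ hy => ?_) (by simp)]
      · rw [← mul_assoc, ← (hcm b b (e a) (e b)).eq, mul_assoc (u b b), hwm, if_pos rfl,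
          mul_assoc, hwm, if_pos rfl]
      · rw [← mul_assoc, ← (hcm b y (e a) (e b)).eq, mul_assoc (u b y), hwm,
          if_neg (fun h => hy (e.injective h).symm), mul_zero, zero_mul]
      · refine Finset.sum_eq_zero fun y _ => ?_
        rw [← mul_assoc, ← (hcm x y (e a) (e b)).eq, mul_assoc (u x y), hwm]
        split_ifs
        · rw [mul_assoc, hwm, if_neg (fun h => hx (e.injective h)), mul_zero]
        · rw [mul_zero, zero_mul]
    calc F * F = ∑ a, ∑ b, F * u a b * w (e b) (e a) := by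
          conv_lhs => arg 2; rw [hF]
          simp only [Finset.mul_sum, mul_assoc]
      _ = ∑ a, ∑ b, u b b * w (e a) (e a) := by simp only [hswap, key]
      _ = 1 := by
          simp only [← Finset.sum_mul, hu1, one_mul]
          rw [Equiv.sum_comp e fun a => w a a, hw1]
  exact ⟨Unitary.mem_iff.2 ⟨by rw [hFs, hFF], by rw [hFs, hFF]⟩, hswap⟩

theorem flip_vac (hc : ∀ n, IsWeight (c n)) {n m : ℕ} (hnm : n ≠ m) (e : Fin (d n) ≃ Fin (d m))
    (he : ∀ j, c m (e j) = c n j) (a b : Fin (d n)) :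
    unitL c H n a b (unitL c H m (e b) (e a) (vac (Cfg d) Ω)) =
      unitR c H n b a (unitR c H m (e a) (e b) (vac (Cfg d) Ω)) := by
  have e1 := unitL_vac (H := H) hc m (e b) (e a) Ω
  rw [he, he] at e1
  have e2 := unitL_vac (H := H) hc n a b Ω
  have c1 : Commute (unitL c H n a b) (unitR c H m (e a) (e b)) :=
    commute_unitL_unitR a b (e a) (e b)
  have c2 : Commute (unitR c H m (e a) (e b)) (unitR c H n b a) := by
    unfold unitR siteR
    exact commute_site hnm.symm _ _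
  have hβ : (√(c n b) : ℂ) ≠ 0 := sqrt_ne (hc n) b
  exact @flip_algebra (Big (Cfg d) H) _ _ (unitL c H n a b) (unitL c H m (e b) (e a))
    (unitR c H m (e a) (e b)) (unitR c H n b a) (vac (Cfg d) Ω) _ _ hβ e1 e2 c1 c2

/-- Two legs with the same weights can be exchanged exactly. -/
theorem exists_flip (hc : ∀ n, IsWeight (c n)) {n m : ℕ} (hnm : n ≠ m) (e : Fin (d n) ≃ Fin (d m))
    (he : ∀ j, c m (e j) = c n j) :
    ∃ F ∈ tens (legsG c) N, ∃ F₁ ∈ (tens (legsG c) N).commutant,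
      F ∈ unitary (Big (Cfg d) H →L[ℂ] Big (Cfg d) H) ∧
      F₁ ∈ unitary (Big (Cfg d) H →L[ℂ] Big (Cfg d) H) ∧
      F (vac (Cfg d) Ω) = F₁ (vac (Cfg d) Ω) ∧ Away (max n m + 1) F ∧ Away (max n m + 1) F₁ ∧
      (∀ l, l ≠ n → l ≠ m → ∀ A, Commute (siteL c H l A) F) ∧
      ∀ p q, F * unitL c H n p q = unitL c H m (e p) (e q) * F := by
  obtain ⟨hFu, hFs⟩ := exchange e (u := unitL c H n) (w := unitL c H m)
    (unit_rules n (siteL c H n)).1 (unit_rules m (siteL c H m)).1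
    (unit_rules n (siteL c H n)).2.1 (unit_rules m (siteL c H m)).2.1
    (unit_rules n (siteL c H n)).2.2 (unit_rules m (siteL c H m)).2.2 (commute_unitL_ne hnm)
  obtain ⟨hF₁u, -⟩ := exchange e (u := unitR c H n) (w := unitR c H m)
    (unit_rules n (siteR c H n)).1 (unit_rules m (siteR c H m)).1
    (unit_rules n (siteR c H n)).2.1 (unit_rules m (siteR c H m)).2.1
    (unit_rules n (siteR c H n)).2.2 (unit_rules m (siteR c H m)).2.2
    (fun a b a' b' => commute_site hnm _ _)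
  have haway : ∀ l, l ≠ n → l ≠ m → ∀ (A : Matrix (Cfg d l) (Cfg d l) ℂ) (X : Matrix (Cfg d n) (Cfg d n) ℂ)
      (Y : Matrix (Cfg d m) (Cfg d m) ℂ), Commute (site H l A) (site H n X * site H m Y) :=
    fun l h1 h2 A X Y => (commute_site h1 A X).mul_right (commute_site h2 A Y)
  refine ⟨_, sum_mem fun a _ => sum_mem fun b _ => mul_mem (siteL_mem c n _) (siteL_mem c m _),
    _, sum_mem fun a _ => sum_mem fun b _ =>
      mul_mem (siteR_mem_commutant c n _) (siteR_mem_commutant c m _), hFu, hF₁u, ?_, ?_, ?_, ?_, hFs⟩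
  · simp only [sum_apply, mul_apply_eq_comp]
    conv_rhs => rw [Finset.sum_comm]
    exact Finset.sum_congr rfl fun a _ => Finset.sum_congr rfl fun b _ => flip_vac hc hnm e he a b
  · exact fun l hl A => Commute.sum_right _ _ _ fun a _ => Commute.sum_right _ _ _ fun b _ =>
      haway l (by omega) (by omega) A _ _
  · exact fun l hl A => Commute.sum_right _ _ _ fun a _ => Commute.sum_right _ _ _ fun b _ =>
      haway l (by omega) (by omega) A _ _
  · exact fun l h1 h2 A => Commute.sum_right _ _ _ fun a _ => Commute.sum_right _ _ _ fun b _ =>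
      haway l h1 h2 _ _ _

/-- Commuting with the legs of a finite set. -/
def freeOn (c : ∀ n, Fin (d n) → ℝ) (H : Type u) [NormedAddCommGroup H] [InnerProductSpace ℂ H]
    [CompleteSpace H] (S : Finset ℕ) (x : Big (Cfg d) H →L[ℂ] Big (Cfg d) H) : Prop :=
  ∀ n ∈ S, ∀ A, Commute (siteL c H n A) x

/-- An element fixed by exact centralisers that is a limit of means commutes with every leg. -/
theorem commute_unit_of_fixed (hc : ∀ n, IsWeight (c n)) (hΩ : IsCS N Ω)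
    (hcopy : ∀ n L, ∃ m, L ≤ m ∧ ∃ e : Fin (d n) ≃ Fin (d m), ∀ j, c m (e j) = c n j)
    {S : Finset ℕ} {y a₀ : Big (Cfg d) H →L[ℂ] Big (Cfg d) H}
    {T : ℕ → Big (Cfg d) H →L[ℂ] Big (Cfg d) H} (hy : y ∈ tens (legsG c) N)
    (hyfar : ∃ n₁, ∀ n, n₁ ≤ n → ∀ A, Commute (siteL c H n A) y) (ha₀ : a₀ ∈ tens (legsG c) N)
    (hT : ∀ k : ℕ, Means (tens (legsG c) N) (vac (Cfg d) Ω) (fun n x => Away n x) (freeOn c H S) y
      ((k : ℝ) + 1)⁻¹ (T k))
    (hTlim : ∀ w, Tendsto (fun k => T k w) atTop (𝓝 (a₀ w)))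
    (hS : ∀ n ∈ S, ∀ A, Commute (siteL c H n A) a₀)
    (exact0 : ∀ F, (∀ δ : ℝ, 0 < δ → Adm (tens (legsG c) N) (vac (Cfg d) Ω)
      (fun n x => Away n x) (freeOn c H S) δ F) → Commute F a₀) (n : ℕ) (p q : Fin (d n)) :
    Commute (unitL c H n p q) a₀ := by
  set M := tens (legsG c) N with hM
  set v := vac (Cfg d) Ω with hv
  have hcs : IsCS M v := isCS_legs hc hΩ
  by_cases hnS : n ∈ S
  · exact hS n hnS _
  have em : unitL c H n p q ∈ M := siteL_mem c n _
  refine sub_eq_zero.1 (hcs.separating _ (sub_mem (mul_mem em ha₀) (mul_mem ha₀ em))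
    (norm_le_zero_iff.1 (le_of_forall_pos_le_add fun η hη => ?_)))
  rw [zero_add]
  obtain ⟨k, hk⟩ := Metric.tendsto_atTop.1 (hTlim v) (η / (√(c n q) / √(c n p) + 1))
    (by have := Real.sqrt_pos.2 ((hc n).pos p); positivity)
  have hk' := hk k le_rfl
  rw [dist_eq_norm, norm_sub_rev] at hk'
  obtain ⟨r, U, -, hU, eT⟩ := hT k
  choose nU hnU using fun i => (hU i).2.2.2
  obtain ⟨n₁, hn₁⟩ := hyfar
  obtain ⟨m, hm, e, he⟩ := hcopy n (Finset.univ.sup nU + S.sup id + n + n₁ + 1)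
  obtain ⟨F, hFm, F₁, hF₁m, hFu, hF₁u, hFv, hFa, hF₁a, hFS, hFsw⟩ :=
    exists_flip (N := N) (Ω := Ω) hc (show n ≠ m by omega) e he
  have hmS : m ∉ S := fun h => by
    have := Finset.le_sup (f := id) h
    simp only [id] at this
    omega
  have hc0 : Commute F a₀ := exact0 F fun δ hδ => ⟨hFm, hFu,
    fun l hl A => hFS l (fun h => hnS (h ▸ hl)) (fun h => hmS (h ▸ hl)) A, _, hFa, F₁, hF₁m,
    hF₁u, hF₁a, by rw [hFv, sub_self, norm_zero]; exact hδ.le⟩
  set e₀ := unitL c H n p q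
  set e₁ := unitL c H m (e p) (e q) with he₁
  have e1m : e₁ ∈ M := siteL_mem c m _
  have hc1 : Commute e₁ (T k) := by
    rw [eT]
    refine (Commute.sum_right _ _ _ fun i _ => ?_).smul_right _
    have hi : nU i ≤ m := le_trans (Finset.le_sup (Finset.mem_univ i)) (by omega)
    exact ((away_star (hnU i).1 m hi _).mul_right (hn₁ m (by omega) _)).mul_right
      ((hnU i).1 m hi _)
  have hbm : a₀ - T k ∈ M := sub_mem ha₀ ((hT k).mem hy)
  have hab : e₁ * a₀ - a₀ * e₁ = e₁ * (a₀ - T k) - (a₀ - T k) * e₁ := by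
    rw [mul_sub, sub_mul, hc1.eq]; abel
  have hrel : ((√(c n p) : ℝ) : ℂ) • e₁ v =
      ((√(c n q) : ℝ) : ℂ) • unitR c H m (e q) (e p) v := by
    have h := unitL_vac (H := H) hc m (e p) (e q) Ω
    rwa [he, he] at h
  have hsq : ∀ (f : Matrix (Fin (d m)) (Fin (d m)) ℂ →⋆ₐ[ℂ] (Big (Cfg d) H →L[ℂ] Big (Cfg d) H))
      (x y : Fin (d m)) w, ‖f (Matrix.single x y 1) w‖ ≤ ‖w‖ := fun f x y w =>
    norm_app_le_of_sq (by
      obtain ⟨hs, hm, -⟩ := unit_rules m f
      rw [hs, hm, if_pos rfl, hm, if_pos rfl]) w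
  have hsp : 0 < √(c n p) := Real.sqrt_pos.2 ((hc n).pos p)
  refine (move_bound (A := M) (f₁ := unitR c H m (e q) (e p)) hsp (Real.sqrt_nonneg _) hFu hF₁u
    hF₁m hFv (hFsw p q) hc0 ha₀ hbm e1m hab (siteR_mem_commutant c m _) hrel
    (hsq (siteL c H m) _ _) (hsq (siteR c H m) _ _)).trans ?_
  rw [sub_apply]
  exact (mul_le_mul_of_nonneg_left hk'.le (by positivity)).trans_eq
    (mul_div_cancel₀ _ (by positivity))

/-- An amplified fixed element gives the transfer property. -/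
theorem transfers_of_inv (hc : ∀ n, IsWeight (c n))
    (hgeom : ∀ p k L, ∃ n, L ≤ n ∧ ∃ e : Fin (2 ^ k) ≃ Fin (d n),
      ∀ j, c n (e j) = P132.Fixed.cw (2 ^ p) (2 ^ k) j)
    (D : ModData N Ω) {S : Finset ℕ} {b : H →L[ℂ] H}
    (hinv : ∀ η : ℝ, 0 < η → ∃ δ : ℝ, 0 < δ ∧ ∀ U, Adm (tens (legsG c) N) (vac (Cfg d) Ω)
      (fun n x => Away n x) (freeOn c H S) δ U →
        ‖(star U * amp (Cfg d) H b * U - amp (Cfg d) H b) (vac (Cfg d) Ω)‖ ≤ η) :
    Bic.Transfers D b := by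
  set M := tens (legsG c) N with hM
  set v := vac (Cfg d) Ω with hv
  intro η hη
  obtain ⟨δ₀, hδ₀, hinv'⟩ := hinv (√η) (Real.sqrt_pos.2 hη)
  refine ⟨δ₀ ^ 2, by positivity, fun p k W hW hcent => ?_⟩
  obtain ⟨n, hn, e, he⟩ := hgeom p k (S.sup id + 1)
  have hnS : n ∉ S := fun h => by
    have := Finset.le_sup (f := id) h
    simp only [id] at this
    omega
  set W' : Fin (d n) → Fin (d n) → H →L[ℂ] H := fun x y => W (e.symm x) (e.symm y) with hW'
  have hsum : ∀ {α : Type u} [AddCommMonoid α] (f : Fin (d n) → α), ∑ x, f x = ∑ j, f (e j) :=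
    fun f => (Equiv.sum_comp e f).symm
  have hcent' : cent2 D (c n) W' = cent2 D (P132.Fixed.cw (2 ^ p) (2 ^ k)) W := by
    rw [cent2, cent2, ← Equiv.sum_comp e]
    refine Finset.sum_congr rfl fun x _ => ?_
    rw [← Equiv.sum_comp e]
    exact Finset.sum_congr rfl fun y _ => by simp only [cvec, hW', Equiv.symm_apply_apply, he]
  have hcomm' : comm2 Ω (c n) (fun _ => b) W' = comm2 Ω (P132.Fixed.cw (2 ^ p) (2 ^ k)) (fun _ => b) W := by
    rw [comm2, comm2, ← Equiv.sum_comp e]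
    refine Finset.sum_congr rfl fun x _ => ?_
    rw [← Equiv.sum_comp e]
    exact Finset.sum_congr rfl fun y _ => by simp only [hW', Equiv.symm_apply_apply, he]
  set Wh := lift (unitL c H n) W' with hWh
  set W₁ := lift (unitR c H n) (wmat D W') with hW₁
  have hu1 : ∀ j l, ∑ x, star (W' x j) * W' x l = if j = l then 1 else 0 := fun j l => by
    rw [hsum, Finset.sum_congr rfl fun x _ => show _ = star (W x (e.symm j)) * W x (e.symm l) by
      simp only [hW', Equiv.symm_apply_apply], hW.2.1]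
    simp [e.symm.injective.eq_iff]
  have hu2 : ∀ j l, ∑ x, W' j x * star (W' l x) = if j = l then 1 else 0 := fun j l => by
    rw [hsum, Finset.sum_congr rfl fun x _ => show _ = W (e.symm j) x * star (W (e.symm l) x) by
      simp only [hW', Equiv.symm_apply_apply], hW.2.2]
    simp [e.symm.injective.eq_iff]
  have hc1 : ∀ (g : Matrix (Fin (d n)) (Fin (d n)) ℂ →⋆ₐ[ℂ] Matrix (Cfg d n) (Cfg d n) ℂ) y B,
      Commute (amp (Cfg d) H y) ((site H n).comp g B) := fun g y B => commute_amp_site y n _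
  have hWhu : Wh ∈ unitary (Big (Cfg d) H →L[ℂ] Big (Cfg d) H) :=
    lift_unitary (f := siteL c H n) (hc1 _) hu1 hu2
  have hJsum : ∀ (f g : Fin (d n) → H →L[ℂ] H), (∑ x, P132.Modular.conjOp D (f x) *
      P132.Modular.conjOp D (g x)) = P132.Modular.conjOp D (∑ x, f x * g x) := fun f g => by
    refine ContinuousLinearMap.ext fun w => ?_
    simp only [sum_apply, mul_apply_eq_comp, P132.Modular.conjOp_apply, D.J_invol]
    exact (map_sum (AddMonoidHom.mk' D.J D.J_add) _ _).symm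
  have hJone : ∀ (r : Prop) [Decidable r], P132.Modular.conjOp D (if r then 1 else 0) =
      if r then 1 else 0 := fun r _ => by
    refine ContinuousLinearMap.ext fun w => ?_
    split_ifs <;> simp [P132.Modular.conjOp_apply, D.J_invol, P132.Fixed.J_zero D]
  have hW₁u : W₁ ∈ unitary (Big (Cfg d) H →L[ℂ] Big (Cfg d) H) := by
    refine lift_unitary (f := siteR c H n) (hc1 _) (fun j l => ?_) (fun j l => ?_)
    · simp only [wmat, P132.Modular.star_conjOp, star_star]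
      rw [hJsum, hu2, hJone]
    · simp only [wmat, P132.Modular.star_conjOp, star_star]
      rw [hJsum, hu1, hJone]
  have hWhm : Wh ∈ M := sum_mem fun x _ => sum_mem fun y _ =>
    mul_mem (amp_mem (isUGroup_legsG c) (hW.1 _ _)) (siteL_mem c n _)
  have hW₁m : W₁ ∈ M.commutant := sum_mem fun x _ => sum_mem fun y _ =>
    mul_mem (amp_mem_commutant c (P132.Modular.conjOp_mem D (star_mem (hW.1 _ _))))
      (siteR_mem_commutant c n _)
  have hA : ∀ (l : ℕ), l ≠ n → ∀ A : Matrix (Cfg d l) (Cfg d l) ℂ,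
      Commute (site H l A) Wh ∧ Commute (site H l A) W₁ := fun l hl A =>
    ⟨away_lift (legL (c n)) W' hl A, away_lift (legR (c n)) (wmat D W') hl A⟩
  have hadm : Adm M v (fun n x => Away n x) (freeOn c H S) δ₀ Wh := by
    refine ⟨hWhm, hWhu, fun l hl A => (hA l (fun h => hnS (h ▸ hl)) _).1, n + 1,
      fun l hl A => (hA l (by omega) A).1, W₁, hW₁m, hW₁u, fun l hl A => (hA l (by omega) A).2, ?_⟩
    refine (pow_le_pow_iff_left₀ (norm_nonneg _) hδ₀.le two_ne_zero).1 ?_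
    rw [hv, hWh, hW₁, norm_defect hc D, hcent']
    exact hcent
  rw [← hcomm', ← norm_comm hc W' b, ← hWh, ← hv]
  have e5 : (amp (Cfg d) H b) * Wh - Wh * (amp (Cfg d) H b) = Wh * (star Wh * (amp (Cfg d) H b) * Wh - (amp (Cfg d) H b)) := by
    rw [mul_sub, ← mul_assoc, ← mul_assoc, Unitary.mul_star_self_of_mem hWhu, one_mul]
  rw [e5, mul_apply_eq_comp, norm_app hWhu, ← Real.sq_sqrt hη.le]
  exact pow_le_pow_left₀ (norm_nonneg _) (hinv' Wh hadm) 2

/-- Flattening holds on legs with copies and geometric weights far out. -/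
theorem flat_legs (hc : ∀ n, IsWeight (c n))
    (hcopy : ∀ n L, ∃ m, L ≤ m ∧ ∃ e : Fin (d n) ≃ Fin (d m), ∀ j, c m (e j) = c n j)
    (hgeom : ∀ p k L, ∃ n, L ≤ n ∧ ∃ e : Fin (2 ^ k) ≃ Fin (d n),
      ∀ j, c n (e j) = P132.Fixed.cw (2 ^ p) (2 ^ k) j)
    (hΩ : IsCS N Ω) : Flat (legSlots c N) (vac (Cfg d) Ω) := by
  obtain ⟨D⟩ := P132.Modular.stmtModular.{u} H N Ω hΩ
  refine flat_of fun S y hy hys hy1 hyS hyfar η δ hη hδ => ?_
  set M := tens (legsG c) N with hM
  set v := vac (Cfg d) Ω with hv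
  have hcs : IsCS M v := isCS_legs hc hΩ
  have hcyc : ∀ w, ∀ η : ℝ, 0 < η → ∃ b ∈ M.commutant, ‖b v - w‖ ≤ η := fun w η hη => by
    have hd := Pin.dense_commutant hcs w
    rw [Pin.orbit, ← SetLike.mem_coe, Submodule.topologicalClosure_coe, Metric.mem_closure_iff] at hd
    obtain ⟨_, ⟨x, rfl⟩, hx⟩ := hd η hη
    rw [dist_comm, dist_eq_norm] at hx
    exact ⟨x, x.2, hx.le⟩
  set Q : ℕ → (Big (Cfg d) H →L[ℂ] Big (Cfg d) H) → Prop := fun n x => Away n x with hQd
  set P : (Big (Cfg d) H →L[ℂ] Big (Cfg d) H) → Prop := freeOn c H S with hPd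
  obtain ⟨a₀, ha₀, ha₀s, ha₀n, hinv, T, hT, hTlim⟩ := exists_min (Q := Q) (P := P) hcyc hcs.norm
    (fun n m x h hx l hl A => hx l (h.trans hl) A) (fun n x y hx hy l hl A =>
      (hx l hl A).mul_right (hy l hl A))
    (fun x y hx hy n hn A => (hx n hn A).mul_right (hy n hn A)) (fun n _ A => Commute.one_right _)
    (fun l _ A => Commute.one_right _) hy hys hy1
  have hlim0 : ∀ (f : Big (Cfg d) H →L[ℂ] Big (Cfg d) H), (∀ k, Commute f (T k)) → Commute f a₀ :=
    fun f hf => ContinuousLinearMap.ext fun w => tendsto_nhds_unique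
      (((f.continuous.tendsto _).comp (hTlim w)).congr fun k =>
        congrArg (fun g : Big (Cfg d) H →L[ℂ] Big (Cfg d) H => g w) (hf k).eq) (hTlim (f w))
  have hstar : ∀ {n : ℕ} {x : Big (Cfg d) H →L[ℂ] Big (Cfg d) H},
      (∀ A, Commute (siteL c H n A) x) → ∀ A, Commute (siteL c H n A) (star x) :=
    fun h A => by
      have := (h (star A)).star_star
      rwa [← map_star, star_star] at this
  have hTS : ∀ k, P (T k) := fun k n hn A => by
    obtain ⟨r, U, -, hU, e⟩ := hT k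
    rw [e]
    exact (Commute.sum_right _ _ _ fun i _ =>
      ((hstar ((hU i).2.2.1 n hn) A).mul_right (hyS n hn A)).mul_right
        ((hU i).2.2.1 n hn A)).smul_right _
  -- exact centralisers fix the limit
  have exact0 : ∀ F, (∀ δ : ℝ, 0 < δ → Adm M v Q P δ F) → Commute F a₀ := fun F hF => by
    obtain ⟨hFm, hFu, -⟩ := hF 1 one_pos
    have h : (star F * a₀ * F - a₀) v = 0 :=
      norm_le_zero_iff.1 (le_of_forall_pos_le_add fun η hη => by
        obtain ⟨δ, hδ, h⟩ := hinv η hη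
        simpa using h F (hF δ hδ))
    have h' := sub_eq_zero.1 (hcs.separating _ (sub_mem (mul_mem (mul_mem (star_mem hFm) ha₀) hFm) ha₀) h)
    show F * a₀ = a₀ * F
    calc F * a₀ = F * (star F * a₀ * F) := by rw [h']
      _ = a₀ * F := by simp only [← mul_assoc, Unitary.mul_star_self_of_mem hFu, one_mul]
  have hunit : ∀ n p q, Commute (unitL c H n p q) a₀ := commute_unit_of_fixed hc hΩ hcopy hy hyfar
    ha₀ hT hTlim (fun n hn A => hlim0 _ fun k => hTS k n hn A) exact0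
  have hall : ∀ n, ∀ A : Matrix (Cfg d n) (Cfg d n) ℂ, Commute (site H n A) a₀ := fun n A => by
    refine Submodule.span_induction (p := fun y _ => Commute (site H n y) a₀) ?_
      (by rw [map_zero]; exact Commute.zero_left _)
      (fun y z _ _ h₁ h₂ => by rw [map_add]; exact h₁.add_left h₂)
      (fun r y _ h₁ => by rw [map_smul]; exact h₁.smul_left r) (matrix_mem_span (c n) A)
    rintro _ ⟨⟨X, Y⟩, rfl⟩
    rw [map_mul]
    refine Commute.mul_left ?_
      (VonNeumannAlgebra.mem_commutant_iff.1 (siteR_mem_commutant c n Y) a₀ ha₀).symm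
    show Commute (siteL c H n X) a₀
    rw [Matrix.matrix_eq_sum_single X]
    simp only [map_sum]
    refine Commute.sum_left _ _ _ fun p _ => Commute.sum_left _ _ _ fun q _ => ?_
    rw [show Matrix.single p q (X p q) = X p q • Matrix.single p q (1 : ℂ) by
      rw [Matrix.smul_single, smul_eq_mul, mul_one], map_smul]
    exact (hunit n p q).smul_left _
  set b : H →L[ℂ] H := blk (0 : Lbl (Cfg d)) 0 a₀ with hb_def
  have hab : a₀ = amp (Cfg d) H b := eq_amp_of_commute_site hall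
  have hbN : b ∈ N := blk_mem (isUGroup_legsG c) ha₀ 0 0
  have hbn : ‖b‖ ≤ 1 := by
    rw [← norm_amp (κ := Cfg d) b, ← hab]; exact ha₀n
  have hbs : star b = b := by
    have h := congrArg star hab
    rw [ha₀s, hab, ← map_star] at h
    rw [← blk_amp (κ := Cfg d) (star b) 0, ← h, blk_amp]
  have htr : Bic.Transfers D b := transfers_of_inv hc hgeom D (by
    intro η hη
    obtain ⟨δ, hδ, h⟩ := hinv η hη
    exact ⟨δ, hδ, fun U hU => by rw [← hab]; exact h U hU⟩)
  have hbc : ∀ x ∈ N, b * x = x * b := Bic.central_of_transfer D hΩ hbN hbs hbn htr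
  have hbN' : b ∈ N.commutant :=
    VonNeumannAlgebra.mem_commutant_iff.2 fun x hx => (hbc x hx).symm
  obtain ⟨k, hk1, hk2⟩ : ∃ k : ℕ, ((k : ℝ) + 1)⁻¹ ≤ δ ∧ ‖T k v - a₀ v‖ ≤ η := by
    have h1 := Metric.tendsto_atTop.1 (hTlim v) η hη
    obtain ⟨k₁, hk₁⟩ := h1
    obtain ⟨k₂, hk₂⟩ := exists_nat_gt δ⁻¹
    refine ⟨max k₁ k₂, inv_le_of_inv_le₀ hδ ?_, ?_⟩
    · have : (k₂ : ℝ) ≤ (max k₁ k₂ : ℕ) := Nat.cast_le.2 (le_max_right _ _)
      linarith
    · have := hk₁ _ (le_max_left k₁ k₂)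
      rw [dist_eq_norm] at this
      exact this.le
  obtain ⟨r, U, hr, hU, eT⟩ := hT k
  choose nU hnU using fun i => (hU i).2.2.2
  refine ⟨r, Finset.univ.sup nU, U, b, hr, ⟨hbN, hbN'⟩, hbn, fun i => ?_, ?_⟩
  · obtain ⟨ha, U₁, h1, h2, h3, h4⟩ := hnU i
    have hi : nU i ≤ Finset.univ.sup nU := Finset.le_sup (Finset.mem_univ i)
    exact ⟨(hU i).1, (hU i).2.1, fun l hl A => ha l (hi.trans hl) A, (hU i).2.2.1, U₁, h1, h2,
      fun l hl A => h3 l (hi.trans hl) A, h4.trans hk1⟩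
  · rw [← eT, ← hab, sub_apply]
    exact hk2

theorem flat_lc (hΩ : IsCS N Ω) : Flat (legSlots lc N) (vac (Cfg ld) Ω) :=
  flat_legs isWeight_lc
    (fun n L => by
      obtain ⟨m, hm, h, hw⟩ := exists_copy_leg n L
      exact ⟨m, hm, finCongr h, hw⟩)
    (fun p k L => by
      obtain ⟨n, hn, h, hw⟩ := exists_geom_leg p k L
      exact ⟨n, hn, finCongr h, hw⟩) hΩ

/-- The Frame module. -/
theorem stmtFrame : Iface.StmtFrame.{u} :=
  stmtFrame_of_flat fun _ _ _ _ _ _ _ hΩ => flat_lc hΩ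

end Vale.Agent.P096.III.Frame
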