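import Vale.Agent.P096.III.Frame.Adapt
import Vale.Agent.P096.III.Sites.Legs
import Vale.Agent.P096.III.Bic.Core
import Vale.Agent.P078.General.Part

/-!
# P096, type III Frame: matrices spread over one leg, flips of two legs
-/

namespace Vale.Agent.P096.III.Frame

open scoped InnerProductSpace Topology
open Vale.Agent.P132 (IsCS ModData cvec cent2 comm2 IsUnitaryMat)
open Vale.Agent.P096.III.Tensor
open Vale.Agent.P096.III.Sites (legT_single)

universe u

variable {H : Type u} [NormedAddCommGroup H] [InnerProductSpace ℂ H] [CompleteSpace H]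
  {d : ℕ → ℕ} [∀ n, NeZero (d n)] {c : ∀ n, Fin (d n) → ℝ} {N : VonNeumannAlgebra H} {Ω : H}

/-- A matrix unit of a leg. -/
noncomputable def unitL (c : ∀ n, Fin (d n) → ℝ) (H : Type u) [NormedAddCommGroup H]
    [InnerProductSpace ℂ H] [CompleteSpace H] (n : ℕ) (a b : Fin (d n)) :
    Big (Cfg d) H →L[ℂ] Big (Cfg d) H :=
  siteL c H n (Matrix.single a b 1)

/-- A matrix unit of the other factor. -/
noncomputable def unitR (c : ∀ n, Fin (d n) → ℝ) (H : Type u) [NormedAddCommGroup H]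
    [InnerProductSpace ℂ H] [CompleteSpace H] (n : ℕ) (a b : Fin (d n)) :
    Big (Cfg d) H →L[ℂ] Big (Cfg d) H :=
  siteR c H n (Matrix.single a b 1)

theorem unitL_vac (hc : ∀ n, IsWeight (c n)) (n : ℕ) (a b : Fin (d n)) (h : H) :
    (√(c n a) : ℂ) • unitL c H n a b (vac (Cfg d) h) =
      (√(c n b) : ℂ) • unitR c H n b a (vac (Cfg d) h) := by
  rw [unitL, unitR, siteL_vac hc, ← smul_apply, ← map_smul, legT_single (hc n), map_smul,
    smul_apply]

theorem inner_siteL (hc : ∀ n, IsWeight (c n)) (n : ℕ) (A : Matrix (Fin (d n)) (Fin (d n)) ℂ)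
    (u w : H) :
    ⟪vac (Cfg d) u, siteL c H n A (vac (Cfg d) w)⟫_ℂ = (∑ i, (c n i : ℂ) * A i i) * ⟪u, w⟫_ℂ := by
  rw [inner_vac, ← one_mul (siteL c H n A),
    blk00_mul_siteL hc (T := 1) (N := 0) (fun m _ B => Commute.one_right _) (Nat.zero_le n),
    smul_apply, inner_smul_right]
  rw [← map_one (amp (Cfg d) H), blk_amp, one_apply_eq_self]

theorem inner_unitL (hc : ∀ n, IsWeight (c n)) (n : ℕ) (a b a' b' : Fin (d n)) (u w : H) :
    ⟪unitL c H n a b (vac (Cfg d) u), unitL c H n a' b' (vac (Cfg d) w)⟫_ℂ =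
      if a = a' ∧ b = b' then (c n b : ℂ) * ⟪u, w⟫_ℂ else 0 := by
  have hs : star (Matrix.single a b (1 : ℂ)) = Matrix.single b a 1 := by
    simp [Matrix.star_eq_conjTranspose]
  rw [unitL, unitL, ← ContinuousLinearMap.adjoint_inner_right, ← ContinuousLinearMap.star_eq_adjoint,
    ← map_star, hs, ← mul_apply_eq_comp, ← map_mul]
  rcases eq_or_ne a a' with rfl | ha
  · rw [Matrix.single_mul_single_same, one_mul, inner_siteL hc]
    rcases eq_or_ne b b' with rfl | hb
    · rw [if_pos ⟨rfl, rfl⟩, Finset.sum_eq_single b (fun i _ hi => by simp [Ne.symm hi]) (by simp)]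
      simp
    · rw [if_neg fun h => hb h.2]
      refine mul_eq_zero_of_left (Finset.sum_eq_zero fun i _ => ?_) _
      rw [Matrix.single_apply_of_ne]
      · exact mul_zero _
      · rintro ⟨rfl, rfl⟩; exact hb rfl
  · rw [Matrix.single_mul_single_of_ne (h := ha), map_zero, zero_apply, inner_zero_right,
      if_neg fun h => ha h.1]

/-- The squared length of a matrix of vectors in one leg. -/
theorem norm_sq_legs (hc : ∀ n, IsWeight (c n)) (n : ℕ) (v : Fin (d n) → Fin (d n) → H) :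
    ‖∑ a, ∑ b, unitL c H n a b (vac (Cfg d) (v a b))‖ ^ 2 = ∑ a, ∑ b, c n b * ‖v a b‖ ^ 2 := by
  rw [← Fintype.sum_prod_type', ← Fintype.sum_prod_type',
    Vale.Agent.P078.General.norm_sq_sum_of_orth Finset.univ
      (fun p : Fin (d n) × Fin (d n) => unitL c H n p.1 p.2 (vac (Cfg d) (v p.1 p.2)))
      fun p _ q _ hpq => by
        show ⟪unitL c H n p.1 p.2 _, unitL c H n q.1 q.2 _⟫_ℂ = 0
        rw [inner_unitL hc, if_neg fun h => hpq (Prod.ext h.1 h.2)]]
  refine Finset.sum_congr rfl fun p _ => ?_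
  have h := inner_unitL hc n p.1 p.2 p.1 p.2 (v p.1 p.2) (v p.1 p.2)
  rw [if_pos ⟨rfl, rfl⟩, inner_self_eq_norm_sq_to_K, inner_self_eq_norm_sq_to_K] at h
  exact Complex.ofReal_injective (by push_cast; exact h)

/-- `∑ x_ab ⊗ e_ab`. -/
noncomputable def lift {n : ℕ} (u : Fin (d n) → Fin (d n) → Big (Cfg d) H →L[ℂ] Big (Cfg d) H)
    (x : Fin (d n) → Fin (d n) → H →L[ℂ] H) : Big (Cfg d) H →L[ℂ] Big (Cfg d) H :=
  ∑ a, ∑ b, amp (Cfg d) H (x a b) * u a b

theorem unit_rules (n : ℕ) (f : Matrix (Fin (d n)) (Fin (d n)) ℂ →⋆ₐ[ℂ] (Big (Cfg d) H →L[ℂ] Big (Cfg d) H)) :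
    (∀ a b, star (f (Matrix.single a b 1)) = f (Matrix.single b a 1)) ∧
      (∀ a b a' b', f (Matrix.single a b 1) * f (Matrix.single a' b' 1) =
        if b = a' then f (Matrix.single a b' 1) else 0) ∧
      ∑ a, f (Matrix.single a a 1) = 1 := by
  refine ⟨fun a b => ?_, fun a b a' b' => ?_, ?_⟩
  · rw [← map_star]; simp [Matrix.star_eq_conjTranspose]
  · rw [← map_mul]
    rcases eq_or_ne b a' with rfl | h
    · rw [if_pos rfl, Matrix.single_mul_single_same, one_mul]
    · rw [if_neg h, Matrix.single_mul_single_of_ne (h := h), map_zero]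
  · rw [← map_sum, show (∑ a, Matrix.single a a (1 : ℂ)) = 1 from sum_diag, map_one]

theorem lift_unitary {n : ℕ}
    {f : Matrix (Fin (d n)) (Fin (d n)) ℂ →⋆ₐ[ℂ] (Big (Cfg d) H →L[ℂ] Big (Cfg d) H)}
    (hf : ∀ y B, Commute (amp (Cfg d) H y) (f B)) {x : Fin (d n) → Fin (d n) → H →L[ℂ] H}
    (h1 : ∀ j l, ∑ k, star (x k j) * x k l = if j = l then 1 else 0)
    (h2 : ∀ j l, ∑ k, x j k * star (x l k) = if j = l then 1 else 0) :
    lift (fun a b => f (Matrix.single a b 1)) x ∈
      unitary (Big (Cfg d) H →L[ℂ] Big (Cfg d) H) := by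
  obtain ⟨hs, hm, hone⟩ := unit_rules n f
  have mul : ∀ (x y : Fin (d n) → Fin (d n) → H →L[ℂ] H),
      lift (fun a b => f (Matrix.single a b 1)) x * lift (fun a b => f (Matrix.single a b 1)) y =
        lift (fun a b => f (Matrix.single a b 1)) (fun a b => ∑ k, x a k * y k b) := by
    intro x y
    simp only [lift]
    rw [Finset.sum_mul]
    refine Finset.sum_congr rfl fun a _ => ?_
    rw [Finset.sum_mul]
    simp only [map_sum, map_mul, Finset.sum_mul]
    refine (Finset.sum_congr rfl fun l _ => ?_).trans Finset.sum_comm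
    rw [Finset.mul_sum, Finset.sum_eq_single l (fun k _ hk => ?_) (by simp), Finset.mul_sum]
    · refine Finset.sum_congr rfl fun b _ => ?_
      rw [mul_assoc, ← mul_assoc (f _), ← (hf (y l b) _).eq, mul_assoc, hm, if_pos rfl, ← mul_assoc]
    · rw [Finset.mul_sum]
      refine Finset.sum_eq_zero fun b _ => ?_
      rw [mul_assoc, ← mul_assoc (f _), ← (hf (y k b) _).eq, mul_assoc, hm, if_neg (Ne.symm hk),
        mul_zero, mul_zero]
  have st : star (lift (fun a b => f (Matrix.single a b 1)) x) =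
      lift (fun a b => f (Matrix.single a b 1)) (fun a b => star (x b a)) := by
    simp only [lift, star_sum, star_mul, hs]
    rw [Finset.sum_comm]
    refine Finset.sum_congr rfl fun a _ => Finset.sum_congr rfl fun b _ => ?_
    rw [← map_star, (hf _ _).eq]
  have one : lift (fun a b => f (Matrix.single a b 1)) (fun a b => if a = b then 1 else 0) = 1 := by
    rw [lift, ← hone]
    refine Finset.sum_congr rfl fun a _ => ?_
    rw [Finset.sum_eq_single a (fun b _ hb => by simp [Ne.symm hb]) (by simp)]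
    simp
  refine Unitary.mem_iff.2 ⟨?_, ?_⟩
  · rw [st, mul, ← one]; exact congrArg _ (funext fun a => funext fun b => h1 a b)
  · rw [st, mul, ← one]; exact congrArg _ (funext fun a => funext fun b => h2 a b)

theorem away_lift {n : ℕ} (f : Matrix (Fin (d n)) (Fin (d n)) ℂ →⋆ₐ[ℂ] Matrix (Cfg d n) (Cfg d n) ℂ)
    (x : Fin (d n) → Fin (d n) → H →L[ℂ] H) {m : ℕ} (hm : m ≠ n) (A : Matrix (Cfg d m) (Cfg d m) ℂ) :
    Commute (site H m A) (lift (fun a b => site H n (f (Matrix.single a b 1))) x) :=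
  Commute.sum_right _ _ _ fun _ _ => Commute.sum_right _ _ _ fun _ _ =>
    ((commute_amp_site _ m A).symm).mul_right (commute_site hm A _)

section

variable (hc : ∀ n, IsWeight (c n)) (D : ModData N Ω) {n : ℕ}

/-- The witness entries. -/
noncomputable def wmat (W : Fin (d n) → Fin (d n) → H →L[ℂ] H) (a b : Fin (d n)) : H →L[ℂ] H :=
  P132.Modular.conjOp D (star (W b a))

theorem lift_apply_vac (x : Fin (d n) → Fin (d n) → H →L[ℂ] H) :
    lift (unitL c H n) x (vac (Cfg d) Ω) = ∑ a, ∑ b, unitL c H n a b (vac (Cfg d) (x a b Ω)) := by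
  simp only [lift, sum_apply, mul_apply_eq_comp]
  refine Finset.sum_congr rfl fun a _ => Finset.sum_congr rfl fun b _ => ?_
  rw [show amp (Cfg d) H (x a b) (unitL c H n a b (vac (Cfg d) Ω)) =
      unitL c H n a b (amp (Cfg d) H (x a b) (vac (Cfg d) Ω)) from
    congrArg (fun f : Big (Cfg d) H →L[ℂ] Big (Cfg d) H => f (vac (Cfg d) Ω))
      (commute_amp_site (x a b) n _).eq, vac, amp_single]
  rfl

include hc in
/-- The defect of a matrix over `N` put in one leg. -/
theorem norm_defect (W : Fin (d n) → Fin (d n) → H →L[ℂ] H) :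
    ‖lift (unitL c H n) W (vac (Cfg d) Ω) - lift (unitR c H n) (wmat D W) (vac (Cfg d) Ω)‖ ^ 2 =
      cent2 D (c n) W := by
  have hr : lift (unitR c H n) (wmat D W) (vac (Cfg d) Ω) =
      ∑ a, ∑ b, unitL c H n a b
        (vac (Cfg d) (((√(c n b) : ℂ))⁻¹ • (√(c n a) : ℂ) • D.J (star (W a b) Ω))) := by
    simp only [lift, sum_apply, mul_apply_eq_comp]
    rw [Finset.sum_comm]
    refine Finset.sum_congr rfl fun a _ => Finset.sum_congr rfl fun b _ => ?_
    rw [show amp (Cfg d) H (wmat D W b a) (unitR c H n b a (vac (Cfg d) Ω)) =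
        unitR c H n b a (amp (Cfg d) H (wmat D W b a) (vac (Cfg d) Ω)) from
      congrArg (fun f : Big (Cfg d) H →L[ℂ] Big (Cfg d) H => f (vac (Cfg d) Ω))
        (commute_amp_site (wmat D W b a) n _).eq, vac, amp_single, wmat,
      P132.Modular.conjOp_omega]
    have h := unitL_vac (H := H) hc n a b (D.J (star (W a b) Ω))
    rw [show (lp.single 2 0 (D.J (star (W a b) Ω)) : Big (Cfg d) H) =
      vac (Cfg d) (D.J (star (W a b) Ω)) from rfl]
    have e : ∀ (r : ℂ) (w : H), vac (Cfg d) (r • w) = r • vac (Cfg d) w := fun r w =>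
      map_smul (lp.singleContinuousLinearMap ℂ (fun _ : Lbl (Cfg d) => H) 2 0) r w
    rw [e, e, map_smul, map_smul, h, smul_smul, inv_mul_cancel₀ (sqrt_ne (hc n) b), one_smul]
  rw [hr, lift_apply_vac, ← Finset.sum_sub_distrib]
  simp only [← Finset.sum_sub_distrib, ← map_sub]
  have e : ∀ (v w : H), vac (Cfg d) v - vac (Cfg d) w = vac (Cfg d) (v - w) := fun v w =>
    (map_sub (lp.singleContinuousLinearMap ℂ (fun _ : Lbl (Cfg d) => H) 2 0) v w).symm
  simp only [e]
  rw [norm_sq_legs hc, cent2]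
  refine Finset.sum_congr rfl fun a _ => Finset.sum_congr rfl fun b _ => ?_
  have hb := sqrt_ne (hc n) b
  have e2 : cvec D (c n) W a b = (√(c n b) : ℂ) •
      (W a b Ω - ((√(c n b) : ℂ))⁻¹ • (√(c n a) : ℂ) • D.J (star (W a b) Ω)) := by
    rw [cvec, smul_sub, smul_smul _ ((√(c n b) : ℂ))⁻¹, mul_inv_cancel₀ hb, one_smul]
  rw [e2, norm_smul, mul_pow, Complex.norm_real, Real.norm_of_nonneg (Real.sqrt_nonneg _),
    Real.sq_sqrt ((hc n).pos b).le]

include hc in
/-- The commutator with an element of `N`. -/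
theorem norm_comm (W : Fin (d n) → Fin (d n) → H →L[ℂ] H) (b₀ : H →L[ℂ] H) :
    ‖(amp (Cfg d) H b₀ * lift (unitL c H n) W - lift (unitL c H n) W * amp (Cfg d) H b₀)
        (vac (Cfg d) Ω)‖ ^ 2 = comm2 Ω (c n) (fun _ => b₀) W := by
  have e1 : amp (Cfg d) H b₀ * lift (unitL c H n) W - lift (unitL c H n) W * amp (Cfg d) H b₀ =
      lift (unitL c H n) (fun a b => b₀ * W a b - W a b * b₀) := by
    simp only [lift, Finset.mul_sum, Finset.sum_mul, ← Finset.sum_sub_distrib, map_sub, map_mul,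
      sub_mul]
    refine Finset.sum_congr rfl fun a _ => Finset.sum_congr rfl fun b _ => ?_
    rw [mul_assoc (amp (Cfg d) H (W a b)), unitL,
      show siteL c H n (Matrix.single a b 1) * amp (Cfg d) H b₀ =
        amp (Cfg d) H b₀ * siteL c H n (Matrix.single a b 1) from (commute_amp_site b₀ n _).symm.eq]
    simp only [mul_assoc]
  rw [e1, lift_apply_vac, norm_sq_legs hc, comm2]

end

end Vale.Agent.P096.III.Frame
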