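import Vale.Agent.P096.III.Frame.Twist

/-!
# P096, type III Frame: means of conjugates
-/

namespace Vale.Agent.P096.III.Frame

open scoped InnerProductSpace Topology
open Vale.Agent.P132 (IsCS)

universe u

variable {H : Type u} [NormedAddCommGroup H] [InnerProductSpace ℂ H] [CompleteSpace H]
  {M : VonNeumannAlgebra H} {Ω : H} {ι : Type*} [Fintype ι]

/-- The mean of the conjugates of `y` by a family. -/
noncomputable def mean (p : ι → H →L[ℂ] H) (y : H →L[ℂ] H) : H →L[ℂ] H :=
  (Fintype.card ι : ℂ)⁻¹ • ∑ t, p t * y * star (p t)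

theorem mean_sub (p : ι → H →L[ℂ] H) (x y : H →L[ℂ] H) :
    mean p (x - y) = mean p x - mean p y := by
  simp [mean, mul_sub, sub_mul, Finset.sum_sub_distrib, smul_sub]

theorem mean_mem {p : ι → H →L[ℂ] H} (hp : ∀ t, p t ∈ M) {y : H →L[ℂ] H} (hy : y ∈ M) :
    mean p y ∈ M :=
  M.toStarSubalgebra.smul_mem
    (sum_mem fun t _ => mul_mem (mul_mem (hp t) hy) (star_mem (hp t))) _

theorem star_mean (p : ι → H →L[ℂ] H) {y : H →L[ℂ] H} (hy : star y = y) :
    star (mean p y) = mean p y := by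
  rw [mean, star_smul, star_inv₀, star_natCast, star_sum]
  exact congrArg _ (Finset.sum_congr rfl fun t _ => by rw [star_mul, star_mul, star_star, hy, mul_assoc])

theorem mean_of_commute [Nonempty ι] {p : ι → H →L[ℂ] H}
    (hu : ∀ t, p t ∈ unitary (H →L[ℂ] H)) {y : H →L[ℂ] H} (h : ∀ t, Commute (p t) y) :
    mean p y = y := by
  have e : ∀ t, p t * y * star (p t) = y := fun t => by
    rw [(h t).eq, mul_assoc, Unitary.mul_star_self_of_mem (hu t), mul_one]
  rw [mean, Finset.sum_congr rfl fun t _ => e t, Finset.sum_const, Finset.card_univ,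
    ← Nat.cast_smul_eq_nsmul ℂ, smul_smul,
    inv_mul_cancel₀ (Nat.cast_ne_zero.2 Fintype.card_ne_zero), one_smul]

theorem norm_mean_le [Nonempty ι] {p : ι → H →L[ℂ] H}
    (hu : ∀ t, p t ∈ unitary (H →L[ℂ] H)) (y : H →L[ℂ] H) : ‖mean p y‖ ≤ ‖y‖ := by
  rw [mean, norm_smul, norm_inv, Complex.norm_natCast,
    inv_mul_le_iff₀ (Nat.cast_pos.2 Fintype.card_pos)]
  refine (norm_sum_le _ _).trans ((Finset.sum_le_card_nsmul _ _ _ fun t _ => le_of_eq ?_).trans
    (by rw [nsmul_eq_mul, Finset.card_univ]))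
  rw [CStarRing.norm_mul_mem_unitary _ (Unitary.star_mem (hu t)),
    CStarRing.norm_mem_unitary_mul _ (hu t)]

theorem norm_mean_apply_le [Nonempty ι] (hcs : IsCS M Ω) {p : ι → H →L[ℂ] H}
    (hp : ∀ t, p t ∈ M) (hu : ∀ t, p t ∈ unitary (H →L[ℂ] H)) (hw : ∀ t, Wit M Ω (p t))
    {y : H →L[ℂ] H} (hy : y ∈ M) : ‖mean p y Ω‖ ≤ ‖y Ω‖ := by
  rw [mean, smul_apply, norm_smul, norm_inv, Complex.norm_natCast,
    inv_mul_le_iff₀ (Nat.cast_pos.2 Fintype.card_pos), sum_apply]
  refine (norm_sum_le _ _).trans ((Finset.sum_le_card_nsmul _ _ _ fun t _ => le_of_eq ?_).trans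
    (by rw [nsmul_eq_mul, Finset.card_univ]))
  exact wit_norm hcs (hp t) (hu t) (hw t) hy

theorem mean_conj {p : ι → H →L[ℂ] H} {W : H →L[ℂ] H}
    (h : ∀ t, Commute (p t) W) (y : H →L[ℂ] H) :
    mean p (W * y * star W) = W * mean p y * star W := by
  rw [mean, mean, mul_smul_comm, smul_mul_assoc, Finset.mul_sum, Finset.sum_mul]
  refine congrArg _ (Finset.sum_congr rfl fun t _ => ?_)
  have e : star W * star (p t) = star (p t) * star W := by rw [← star_mul, (h t).eq, star_mul]
  calc p t * (W * y * star W) * star (p t) = p t * W * y * (star W * star (p t)) := by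
        simp only [mul_assoc]
    _ = W * p t * y * (star (p t) * star W) := by rw [e, (h t).eq]
    _ = _ := by simp only [mul_assoc]

theorem commute_mean {A : Finset (H →L[ℂ] H)} (hmul : ∀ g ∈ A, ∀ h ∈ A, g * h ∈ A)
    (hstar : ∀ g ∈ A, star g ∈ A) (hu : ∀ g ∈ A, g ∈ unitary (H →L[ℂ] H)) {a : H →L[ℂ] H}
    (ha : a ∈ A) (y : H →L[ℂ] H) : Commute a (mean (fun g : A => (g : H →L[ℂ] H)) y) := by
  have key : a * mean (fun g : A => (g : H →L[ℂ] H)) y * star a =
      mean (fun g : A => (g : H →L[ℂ] H)) y := by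
    rw [mean, mul_smul_comm, smul_mul_assoc, Finset.mul_sum, Finset.sum_mul,
      Finset.sum_coe_sort A fun g => a * (g * y * star g) * star a,
      Finset.sum_coe_sort A fun g => g * y * star g]
    congr 1
    refine Finset.sum_bij' (fun g _ => a * g) (fun g _ => star a * g)
      (fun g hg => hmul a ha g hg) (fun g hg => hmul _ (hstar a ha) g hg)
      (fun g _ => by rw [← mul_assoc, Unitary.star_mul_self_of_mem (hu a ha), one_mul])
      (fun g _ => by rw [← mul_assoc, Unitary.mul_star_self_of_mem (hu a ha), one_mul])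
      (fun g _ => by rw [star_mul]; simp only [mul_assoc])
  calc a * mean (fun g : A => (g : H →L[ℂ] H)) y
      = a * mean (fun g : A => (g : H →L[ℂ] H)) y * star a * a := by
        rw [mul_assoc _ (star a), Unitary.star_mul_self_of_mem (hu a ha), mul_one]
    _ = _ := by rw [key]

end Vale.Agent.P096.III.Frame
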