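import Vale.Agent.P096.III.Frame.Tower
import Vale.Agent.P096.III.Tensor.Legs
import Vale.Agent.P096.III.Iface
import Vale.Agent.P132.Fixed.Beta

/-!
# P096, type III Frame: the schedule of legs

Every trace weight and every geometric weight `cw (2^m) (2^k)` occurs at infinitely many sites.
-/

namespace Vale.Agent.P096.III.Frame

open scoped InnerProductSpace Topology
open Vale.Agent.P132 (IsCS)
open Vale.Agent.P096.III.Tensor

universe u

/-- The sizes and weights of the kinds: traces and geometric weights. -/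
noncomputable def kind (i : ℕ) : Σ D : ℕ, Fin D → ℝ :=
  if i.unpair.1 = 0 then ⟨i.unpair.2 + 1, fun _ => ((i.unpair.2 + 1 : ℕ) : ℝ)⁻¹⟩
  else ⟨2 ^ i.unpair.2.unpair.2,
    P132.Fixed.cw (2 ^ i.unpair.2.unpair.1) (2 ^ i.unpair.2.unpair.2)⟩

/-- The size of the leg at site `n`. -/
noncomputable def ld (n : ℕ) : ℕ := (kind n.unpair.1).1

/-- The weights of the leg at site `n`. -/
noncomputable def lc (n : ℕ) : Fin (ld n) → ℝ := (kind n.unpair.1).2

theorem ld_pos (n : ℕ) : 0 < ld n := by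
  unfold ld kind
  split_ifs <;> simp

noncomputable instance (n : ℕ) : NeZero (ld n) := ⟨(ld_pos n).ne'⟩

theorem isWeight_lc (n : ℕ) : IsWeight (lc n) := by
  suffices h : ∀ i, IsWeight (kind i).2 from h _
  intro i
  by_cases h : i.unpair.1 = 0
  · rw [show kind i = _ from if_pos h]
    exact ⟨fun _ => inv_pos.2 (Nat.cast_pos.2 (Nat.succ_pos _)), by
      have : ((i.unpair.2 : ℝ) + 1) ≠ 0 := by positivity
      simp [Finset.sum_const, mul_inv_cancel₀ this]⟩
  · rw [show kind i = _ from if_neg h]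
    exact ⟨fun j => P132.Fixed.cw_pos _ (Nat.two_pow_pos _) j,
      P132.Fixed.sum_cw _ (Nat.two_pow_pos _)⟩

theorem kind_trace (r : ℕ) : kind (Nat.pair 0 r) = ⟨r + 1, fun _ => ((r + 1 : ℕ) : ℝ)⁻¹⟩ := by
  unfold kind
  rw [Nat.unpair_pair, if_pos rfl]

theorem kind_geom (m k : ℕ) :
    kind (Nat.pair 1 (Nat.pair m k)) = ⟨2 ^ k, P132.Fixed.cw (2 ^ m) (2 ^ k)⟩ := by
  unfold kind
  rw [Nat.unpair_pair, if_neg one_ne_zero, Nat.unpair_pair]

/-- Trace legs of every size are far out. -/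
theorem exists_trace_leg (r N : ℕ) (hr : 0 < r) :
    ∃ n, N ≤ n ∧ ld n = r ∧ ∀ j, lc n j = (r : ℝ)⁻¹ := by
  refine ⟨Nat.pair (Nat.pair 0 (r - 1)) N, Nat.right_le_pair _ _, ?_⟩
  have hk : kind (Nat.pair (Nat.pair 0 (r - 1)) N).unpair.1 =
      ⟨r - 1 + 1, fun _ => ((r - 1 + 1 : ℕ) : ℝ)⁻¹⟩ := by
    rw [Nat.unpair_pair, kind_trace]
  have hr' : r - 1 + 1 = r := Nat.succ_pred_eq_of_pos hr
  unfold ld lc
  rw [hk]
  exact ⟨hr', fun j => by simp only [hr']⟩

/-- Geometric legs of every kind are far out. -/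
theorem exists_geom_leg (m k N : ℕ) :
    ∃ n, N ≤ n ∧ ∃ h : 2 ^ k = ld n, ∀ j, lc n (Fin.cast h j) = P132.Fixed.cw (2 ^ m) (2 ^ k) j := by
  refine ⟨Nat.pair (Nat.pair 1 (Nat.pair m k)) N, Nat.right_le_pair _ _, ?_⟩
  have hk : kind (Nat.pair (Nat.pair 1 (Nat.pair m k)) N).unpair.1 =
      ⟨2 ^ k, P132.Fixed.cw (2 ^ m) (2 ^ k)⟩ := by
    rw [Nat.unpair_pair, kind_geom]
  unfold ld lc
  rw [hk]
  exact ⟨rfl, fun j => rfl⟩

/-- Every leg has copies far out. -/
theorem exists_copy_leg (n N : ℕ) :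
    ∃ m, N ≤ m ∧ ∃ h : ld n = ld m, ∀ j, lc m (Fin.cast h j) = lc n j := by
  refine ⟨Nat.pair n.unpair.1 N, Nat.right_le_pair _ _, ?_⟩
  have hk : kind (Nat.pair n.unpair.1 N).unpair.1 = kind n.unpair.1 := by rw [Nat.unpair_pair]
  unfold ld lc
  rw [hk]
  exact ⟨rfl, fun j => rfl⟩

variable {H : Type u} [NormedAddCommGroup H] [InnerProductSpace ℂ H] [CompleteSpace H]

/-- The legs as slots. -/
noncomputable def legSlots {d : ℕ → ℕ} [∀ n, NeZero (d n)] (c : ∀ n, Fin (d n) → ℝ)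
    (N : VonNeumannAlgebra H) : Slots (tens (legsG c) N) d where
  L n := siteL c H n
  R n := siteR c H n
  L_mem n A := siteL_mem c n A
  R_mem n A := siteR_mem_commutant c n A
  comm _ _ h _ _ := commute_site h _ _

theorem legT_of_const {m : ℕ} {c : Fin m → ℝ} (hc : IsWeight c) {t : ℝ} (ht : ∀ j, c j = t)
    (A : Matrix (Fin m) (Fin m) ℂ) : legT c A = A.transpose := by
  ext k i
  rw [legT, Matrix.of_apply, Matrix.transpose_apply, ht k, ← ht i,
    mul_div_assoc, div_self (sqrt_ne hc i), mul_one]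

theorem trace_legSlots {d : ℕ → ℕ} [∀ n, NeZero (d n)] {c : ∀ n, Fin (d n) → ℝ}
    (hc : ∀ n, IsWeight (c n)) (N : VonNeumannAlgebra H) (Ω : H) {n : ℕ} {t : ℝ}
    (ht : ∀ j, c n j = t) : (legSlots c N).Trace (vac (Cfg d) Ω) n := fun A => by
  show siteL c H n A _ = siteR c H n _ _
  rw [siteL_vac hc, legT_of_const (hc n) ht]

omit [CompleteSpace H] in
/-- The product space is separable. -/
theorem separableSpace_big {κ : ℕ → Type} [∀ n, Fintype (κ n)] [∀ n, DecidableEq (κ n)]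
    [∀ n, Zero (κ n)] [TopologicalSpace.SeparableSpace H] :
    TopologicalSpace.SeparableSpace (Big κ H) := by
  have : Countable (Lbl κ) := by
    refine Function.Injective.countable (f := fun i : Lbl κ =>
      (⟨i.support, fun n => i n.1⟩ : Σ s : Finset ℕ, ∀ n : s, κ n.1)) fun i j h => ?_
    obtain ⟨h1, h2⟩ := Sigma.mk.inj_iff.1 h
    ext n
    by_cases hn : n ∈ i.support
    · have key : ∀ (s : Finset ℕ) (hs : i.support = s) (g : ∀ m : s, κ m.1),
          HEq (fun m : i.support => i m.1) g → i n = g ⟨n, hs ▸ hn⟩ := by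
        rintro s rfl g hg
        rw [← eq_of_heq hg]
      exact key _ h1 _ h2
    · rw [DFinsupp.notMem_support_iff.1 hn, DFinsupp.notMem_support_iff.1 (h1 ▸ hn)]
  have hs : TopologicalSpace.IsSeparable
      (⋃ j : Lbl κ, Set.range fun h : H => (lp.single 2 j h : Big κ H)) :=
    TopologicalSpace.IsSeparable.iUnion fun j => TopologicalSpace.isSeparable_range
      (lp.singleContinuousLinearMap ℂ (fun _ : Lbl κ => H) 2 j).continuous
  refine TopologicalSpace.isSeparable_univ_iff.1 ((hs.span (R := ℂ)).closure.mono fun v _ => ?_)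
  exact mem_closure_of_tendsto (lp.hasSum_single (p := 2) (by norm_num) v)
    (Filter.Eventually.of_forall fun t => Submodule.sum_mem _ fun i _ =>
      Submodule.subset_span (Set.mem_iUnion.2 ⟨i, _, rfl⟩))

/-- Flattening and truncation on the legs give the Frame module. -/
theorem stmtFrame_of
    (hF : ∀ (H : Type u) [NormedAddCommGroup H] [InnerProductSpace ℂ H] [CompleteSpace H]
      [TopologicalSpace.SeparableSpace H] (N : VonNeumannAlgebra H) (Ω : H), IsCS N Ω →
      Flat (legSlots lc N) (vac (Cfg ld) Ω) ∧ Trunc (legSlots lc N) (vac (Cfg ld) Ω)) :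
    Iface.StmtFrame.{u} := by
  intro H _ _ _ _ N Ω hΩ
  have hsep : TopologicalSpace.SeparableSpace (Big (Cfg ld) H) := separableSpace_big
  obtain ⟨h1, h2⟩ := hF H N Ω hΩ
  obtain ⟨Ω', P, hP⟩ := exists_grps (isCS_legs isWeight_lc hΩ) (fun r n hr => by
    obtain ⟨m, hm, hd, hc⟩ := exists_trace_leg r n hr
    exact ⟨m, hm, hd, trace_legSlots isWeight_lc N Ω hc⟩) h1 h2
  exact ⟨Cfg ld, inferInstance, inferInstance, inferInstance, legsG lc, isUGroup_legsG lc, hsep,
    Ω', P, hP⟩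

end Vale.Agent.P096.III.Frame
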