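import Vale.Agent.P096.III.Defs
import Vale.Agent.P132.Modular.Exports

/-!
# P096, type III Frame: matrix slots with a flattening property

`Slots` : commuting matrix copies `L n` in `M` with copies `R n` in the commutant.
`Flat` : averages over unitaries that nearly have a witness in the commutant, all supported away
from far slots, bring every such selfadjoint element into the centre. `Trunc` : those are dense.
-/

namespace Vale.Agent.P096.III.Frame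

open scoped InnerProductSpace Topology
open Vale.Agent.P132 (IsCS)

universe u

variable {H : Type u} [NormedAddCommGroup H] [InnerProductSpace ℂ H] [CompleteSpace H]

/-- Commuting matrix copies in `M` and copies in its commutant. -/
structure Slots (M : VonNeumannAlgebra H) (d : ℕ → ℕ) where
  /-- the copy in `M` -/
  L : ∀ n, Matrix (Fin (d n)) (Fin (d n)) ℂ →⋆ₐ[ℂ] (H →L[ℂ] H)
  /-- the copy in the commutant -/
  R : ∀ n, Matrix (Fin (d n)) (Fin (d n)) ℂ →⋆ₐ[ℂ] (H →L[ℂ] H)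
  L_mem : ∀ n A, L n A ∈ M
  R_mem : ∀ n A, R n A ∈ M.commutant
  comm : ∀ n m, n ≠ m → ∀ A B, Commute (L n A) (L m B)

variable {M : VonNeumannAlgebra H} {Ω : H} {d : ℕ → ℕ}

/-- A slot with the trace. -/
def Slots.Trace (Sl : Slots M d) (Ω : H) (n : ℕ) : Prop :=
  ∀ A, Sl.L n A Ω = Sl.R n A.transpose Ω

/-- `x` commutes with the slot `n`. -/
def Slots.Free (Sl : Slots M d) (x : H →L[ℂ] H) (n : ℕ) : Prop :=
  ∀ A, Commute (Sl.L n A) x

/-- `y` commutes with the copy `n` in the commutant. -/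
def Slots.FreeR (Sl : Slots M d) (y : H →L[ℂ] H) (n : ℕ) : Prop :=
  ∀ A, Commute (Sl.R n A) y

/-- Selfadjoint elements away from far slots are dense at `Ω`. -/
def Trunc (Sl : Slots M d) (Ω : H) : Prop :=
  ∀ x ∈ M, star x = x → ∀ η : ℝ, 0 < η →
    ∃ y ∈ M, star y = y ∧ ‖y‖ ≤ ‖x‖ ∧ ‖(y - x) Ω‖ ≤ η ∧ ∃ N₀, ∀ n, N₀ ≤ n → Sl.Free y n

/-- Flattening. -/
def Flat (Sl : Slots M d) (Ω : H) : Prop :=
  ∀ (S : Finset ℕ) (a : H →L[ℂ] H), a ∈ M → star a = a → (∀ n ∈ S, Sl.Free a n) →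
  (∃ N, ∀ n, N ≤ n → Sl.Free a n) →
  ∀ η δ : ℝ, 0 < η → 0 < δ →
    ∃ (r N₀ : ℕ) (U : Fin r → H →L[ℂ] H) (z : H →L[ℂ] H), 0 < r ∧
      (∀ s, U s ∈ M ∧ U s ∈ unitary (H →L[ℂ] H) ∧ (∀ n ∈ S, Sl.Free (U s) n) ∧
        (∀ n, N₀ ≤ n → Sl.Free (U s) n) ∧ ∃ U' ∈ M.commutant, U' ∈ unitary (H →L[ℂ] H) ∧
          (∀ n, N₀ ≤ n → Sl.FreeR U' n) ∧ ‖U s Ω - U' Ω‖ ≤ δ) ∧
      InCentre M z ∧ ‖z‖ ≤ ‖a‖ ∧
      ‖(((r : ℂ)⁻¹ • ∑ s, U s * a * star (U s)) - z) Ω‖ ≤ η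

end Vale.Agent.P096.III.Frame
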