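import Vale.Agent.P096.III.Frame.Mean
import Vale.Agent.P096.III.Tensor.Frame
import Vale.Agent.P078.General.Part

/-!
# P096, type III Frame: a list of unitaries spread over one fresh trace slot

`W = ∑ U_j e_jj` is a unitary that nearly has the witness `∑ U'_j f_jj`, and the mean of the
conjugates of `W a W*` by the cyclic permutations of the slot is the mean of `U_j a U_j*`.
-/

namespace Vale.Agent.P096.III.Frame

open scoped InnerProductSpace Topology
open Vale.Agent.P132 (IsCS)
open Vale.Agent.P096.III.Tensor (sgnPerm sgnPerm_one sgnPerm_mul star_sgnPerm)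

universe u

variable {H : Type u} [NormedAddCommGroup H] [InnerProductSpace ℂ H] [CompleteSpace H]
  {M : VonNeumannAlgebra H} {Ω : H} {d : ℕ → ℕ} (Sl : Slots M d) {n : ℕ}

/-- The diagonal unit of a slot. -/
noncomputable def diag (n : ℕ) (j : Fin (d n)) : Matrix (Fin (d n)) (Fin (d n)) ℂ := Matrix.single j j 1

theorem diag_mul (j k : Fin (d n)) :
    diag n j * diag n k = if j = k then diag n j else 0 := by
  rcases eq_or_ne j k with rfl | h
  · simp [diag]
  · simp [diag, h]

theorem sum_diag : ∑ j : Fin (d n), diag n j = 1 := by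
  ext a b
  simp [diag, Matrix.sum_apply, Matrix.single_apply, Matrix.one_apply, ite_and]

theorem star_diag (j : Fin (d n)) : star (diag n j) = diag n j := by
  simp [diag, Matrix.star_eq_conjTranspose]

theorem transpose_diag (j : Fin (d n)) : (diag n j).transpose = diag n j := by simp [diag]

theorem sgnPerm_mul_star (x : (Fin (d n) → Bool) × Equiv.Perm (Fin (d n))) :
    sgnPerm x * star (sgnPerm x) = 1 := by
  rw [star_sgnPerm, sgnPerm_mul, ← sgnPerm_one (m := d n)]
  congr 1
  exact Prod.ext (funext fun a => by simp) (Equiv.ext fun a => by simp)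

/-- A permutation matrix moves the diagonal units. -/
theorem perm_diag (π : Equiv.Perm (Fin (d n))) (j : Fin (d n)) :
    sgnPerm (fun _ => true, π) * diag n (π j) = diag n j * sgnPerm (fun _ => true, π) := by
  ext a b
  rw [Matrix.mul_apply, Matrix.mul_apply,
    Finset.sum_eq_single (π a) (fun x _ hx => by simp [sgnPerm, Ne.symm hx]) (by simp),
    Finset.sum_eq_single a (fun x _ hx => ?_) (by simp)]
  · rcases eq_or_ne j a with rfl | hj
    · by_cases hb : π j = b <;> simp [diag, sgnPerm, hb]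
    · simp [diag, sgnPerm, hj, π.injective.ne hj]
  · rcases eq_or_ne j a with rfl | hj
    · simp [diag, Ne.symm hx]
    · simp [diag, hj]

section Spread

variable {U U' : Fin (d n) → H →L[ℂ] H}

/-- `∑ U_j e_jj`. -/
noncomputable def spread (U : Fin (d n) → H →L[ℂ] H) : H →L[ℂ] H := ∑ j, U j * Sl.L n (diag n j)

/-- `∑ U'_j f_jj`. -/
noncomputable def spreadR (U' : Fin (d n) → H →L[ℂ] H) : H →L[ℂ] H := ∑ j, U' j * Sl.R n (diag n j)

theorem sum_mul_mem_unitary {ι : Type*} [Fintype ι] [DecidableEq ι] {U e : ι → H →L[ℂ] H}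
    (hU : ∀ j, U j ∈ unitary (H →L[ℂ] H)) (hes : ∀ j, star (e j) = e j)
    (hee : ∀ j k, e j * e k = if j = k then e j else 0) (h1 : ∑ j, e j = 1)
    (hc : ∀ j k, Commute (e j) (U k)) : (∑ j, U j * e j) ∈ unitary (H →L[ℂ] H) := by
  have hc' : ∀ j k, Commute (e j) (star (U k)) := fun j k => by
    have := (hc j k).star_star
    rwa [hes] at this
  refine Unitary.mem_iff.2 ⟨?_, ?_⟩
  · rw [star_sum, Finset.sum_mul_sum, ← h1]
    refine Finset.sum_congr rfl fun j _ => ?_
    rw [Finset.sum_eq_single j (fun k _ hk => ?_) (by simp)]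
    · rw [star_mul, hes, mul_assoc, ← mul_assoc (star (U j)), Unitary.star_mul_self_of_mem (hU j),
        one_mul, hee, if_pos rfl]
    · rw [star_mul, hes, ← (hc k k).eq, (hc' j j).eq, mul_assoc (star (U j)),
        ← mul_assoc (e j) (e k), hee, if_neg (Ne.symm hk), zero_mul, mul_zero]
  · rw [star_sum, Finset.sum_mul_sum, ← h1]
    refine Finset.sum_congr rfl fun j _ => ?_
    rw [Finset.sum_eq_single j (fun k _ hk => ?_) (by simp)]
    · rw [star_mul, hes, ← mul_assoc, mul_assoc (U j), hee, if_pos rfl, ← (hc j j).eq, mul_assoc,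
        Unitary.mul_star_self_of_mem (hU j), mul_one]
    · rw [star_mul, hes, mul_assoc (U j), ← mul_assoc (e j), hee, if_neg (Ne.symm hk), zero_mul,
        mul_zero]

theorem diag_sys (f : Matrix (Fin (d n)) (Fin (d n)) ℂ →⋆ₐ[ℂ] (H →L[ℂ] H)) :
    (∀ j, star (f (diag n j)) = f (diag n j)) ∧
      (∀ j k, f (diag n j) * f (diag n k) = if j = k then f (diag n j) else 0) ∧
      ∑ j, f (diag n j) = 1 :=
  ⟨fun j => by rw [← map_star, star_diag],
    fun j k => by rw [← map_mul, diag_mul]; split_ifs <;> simp,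
    by rw [← map_sum, sum_diag, map_one]⟩

theorem spread_unitary (hU : ∀ j, U j ∈ unitary (H →L[ℂ] H)) (hf : ∀ j, Sl.Free (U j) n) :
    spread Sl U ∈ unitary (H →L[ℂ] H) :=
  sum_mul_mem_unitary hU (diag_sys (Sl.L n)).1 (diag_sys (Sl.L n)).2.1 (diag_sys (Sl.L n)).2.2
    fun _ k => hf k _

theorem spreadR_unitary (hU : ∀ j, U' j ∈ unitary (H →L[ℂ] H)) (hf : ∀ j, Sl.FreeR (U' j) n) :
    spreadR Sl U' ∈ unitary (H →L[ℂ] H) :=
  sum_mul_mem_unitary hU (diag_sys (Sl.R n)).1 (diag_sys (Sl.R n)).2.1 (diag_sys (Sl.R n)).2.2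
    fun _ k => hf k _

theorem spread_mem (hU : ∀ j, U j ∈ M) : spread Sl U ∈ M :=
  sum_mem fun j _ => mul_mem (hU j) (Sl.L_mem n _)

theorem spreadR_mem (hU : ∀ j, U' j ∈ M.commutant) : spreadR Sl U' ∈ M.commutant :=
  sum_mem fun j _ => mul_mem (hU j) (Sl.R_mem n _)

theorem spread_free {m : ℕ} (hm : m ≠ n) (hf : ∀ j, Sl.Free (U j) m) :
    Sl.Free (spread Sl U) m := fun A =>
  Commute.sum_right _ _ _ fun j _ => (hf j A).mul_right (Sl.comm m n hm A _)

/-- The defect of the spread list. -/
theorem norm_spread_sub_le (ht : Sl.Trace Ω n) (hn : 0 < d n) (hU : ∀ j, U j ∈ M)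
    (hU' : ∀ j, U' j ∈ M.commutant) (hf : ∀ j, Sl.Free (U j) n) (hf' : ∀ j, Sl.FreeR (U' j) n)
    {δ : ℝ} (hδ : 0 ≤ δ) (h : ∀ j, ‖U j Ω - U' j Ω‖ ≤ δ) :
    ‖spread Sl U Ω - spreadR Sl U' Ω‖ ≤ δ := by
  set R : Fin (d n) → H →L[ℂ] H := fun j => Sl.R n (diag n j) with hR
  have hd : ∀ j, Sl.L n (diag n j) Ω = R j Ω := fun j => by rw [ht, transpose_diag]
  have e : spread Sl U Ω - spreadR Sl U' Ω = ∑ j, R j (U j Ω - U' j Ω) := by
    rw [spread, spreadR, sum_apply, sum_apply, ← Finset.sum_sub_distrib]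
    refine Finset.sum_congr rfl fun j _ => ?_
    rw [mul_apply_eq_comp, hd, comm_app (hU j) (Sl.R_mem n _), map_sub]
    exact congrArg (fun v => R j (U j Ω) - v)
      (congrArg (fun f : H →L[ℂ] H => f Ω) (hf' j _).eq).symm
  obtain ⟨hs, hee, h1⟩ := diag_sys (Sl.R n)
  have hrr : ∀ j k v, R j (R k v) = if j = k then R j v else 0 := fun j k v => by
    rw [← mul_apply_eq_comp, hR]
    show (Sl.R n (diag n j) * Sl.R n (diag n k)) v = _
    rw [hee]
    split_ifs <;> simp
  have hin : ∀ j k v w, ⟪R j v, R k w⟫_ℂ = if j = k then ⟪v, R j w⟫_ℂ else 0 := fun j k v w => by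
    conv_lhs => rw [show R j = star (R j) from (hs j).symm, ContinuousLinearMap.star_eq_adjoint,
      ContinuousLinearMap.adjoint_inner_left, hrr]
    split_ifs <;> simp
  -- each defect has the same length on every unit
  have heq : ∀ (i j k : Fin (d n)), ‖R j (U i Ω - U' i Ω)‖ = ‖R k (U i Ω - U' i Ω)‖ := fun i j k => by
    set π := Equiv.swap j k
    set p := sgnPerm (fun _ => true, π) with hp
    have hps : star p = p := by rw [hp, star_sgnPerm, Equiv.symm_swap]
    have hpp : p * p = 1 := by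
      conv_lhs => arg 2; rw [← hps]
      exact sgnPerm_mul_star _
    have hpt : p.transpose = p := by
      ext a b
      simp only [Matrix.transpose_apply, hp, sgnPerm, Matrix.of_apply, if_true]
      refine if_congr ⟨fun h => ?_, fun h => ?_⟩ rfl rfl <;> rw [← h, Equiv.swap_apply_self]
    set q := Sl.R n p * Sl.L n p with hq
    have hqu : q ∈ unitary (H →L[ℂ] H) :=
      mul_mem (Unitary.map_mem _ (Unitary.mem_iff.2 ⟨by rw [hps, hpp], by rw [hps, hpp]⟩))
        (Unitary.map_mem _ (Unitary.mem_iff.2 ⟨by rw [hps, hpp], by rw [hps, hpp]⟩))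
    have hqΩ : q Ω = Ω := by
      rw [hq, mul_apply_eq_comp, ht, hpt, ← mul_apply_eq_comp, ← map_mul, hpp, map_one,
        one_apply_eq_self]
    have hc : ∀ {x}, x ∈ M → ∀ A, Commute (Sl.R n A) x := fun {x} hx A =>
      (VonNeumannAlgebra.mem_commutant_iff.1 (Sl.R_mem n A) x hx).symm
    have hc1 : Commute q (U i) := (hc (hU i) p).mul_left (hf i p)
    have hc2 : Commute q (U' i) := (hf' i p).mul_left
      (VonNeumannAlgebra.mem_commutant_iff.1 (hU' i) _ (Sl.L_mem n p))
    have hqR : q * R k = R j * q := by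
      rw [hq, hR]
      show Sl.R n p * Sl.L n p * Sl.R n (diag n k) = Sl.R n (diag n j) * (Sl.R n p * Sl.L n p)
      rw [mul_assoc, ← ((hc (Sl.L_mem n p)) _).eq, ← mul_assoc, ← mul_assoc, ← map_mul, ← map_mul]
      refine congrArg (fun A => Sl.R n A * Sl.L n p) ?_
      have := perm_diag π j
      rwa [Equiv.swap_apply_left] at this
    clear_value q
    have hqv : q (U i Ω - U' i Ω) = U i Ω - U' i Ω := by
      rw [map_sub, ← mul_apply_eq_comp, ← mul_apply_eq_comp, hc1.eq, hc2.eq, mul_apply_eq_comp,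
        mul_apply_eq_comp, hqΩ]
    conv_lhs => rw [← hqv, ← mul_apply_eq_comp, ← hqR, mul_apply_eq_comp]
    exact norm_app hqu _
  have hv : ∀ i j, ‖R j (U i Ω - U' i Ω)‖ ^ 2 = ‖U i Ω - U' i Ω‖ ^ 2 / (d n : ℝ) := fun i j => by
    set v := U i Ω - U' i Ω
    have hsum : ∑ k, ‖R k v‖ ^ 2 = ‖v‖ ^ 2 := by
      rw [← Vale.Agent.P078.General.norm_sq_sum_of_orth Finset.univ (fun k => R k v) fun a _ b _ hab => by
        show ⟪R a v, R b v⟫_ℂ = 0
        rw [hin, if_neg hab]]
      rw [← sum_apply, show ∑ k, R k = 1 from h1, one_apply_eq_self]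
    rw [Finset.sum_congr rfl fun k _ => show ‖R k v‖ ^ 2 = ‖R j v‖ ^ 2 by rw [heq i k j],
      Finset.sum_const, Finset.card_univ, Fintype.card_fin, nsmul_eq_mul] at hsum
    rw [eq_div_iff (by positivity)]
    linarith
  rw [e, ← pow_le_pow_iff_left₀ (norm_nonneg _) hδ two_ne_zero,
    Vale.Agent.P078.General.norm_sq_sum_of_orth _ _ fun a _ b _ hab => by
      show ⟪R a _, R b _⟫_ℂ = 0
      rw [hin, if_neg hab]]
  calc ∑ j, ‖R j (U j Ω - U' j Ω)‖ ^ 2 ≤ ∑ _j : Fin (d n), δ ^ 2 / (d n : ℝ) :=
        Finset.sum_le_sum fun j _ => by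
          rw [hv]
          exact div_le_div_of_nonneg_right (pow_le_pow_left₀ (norm_nonneg _) (h j) 2) (by positivity)
    _ = δ ^ 2 := by
        rw [Finset.sum_const, Finset.card_univ, Fintype.card_fin, nsmul_eq_mul]
        field_simp

/-- The cyclic permutations of a slot. -/
noncomputable def shift [NeZero (d n)] (t : Fin (d n)) : H →L[ℂ] H :=
  Sl.L n (sgnPerm (fun _ => true, Equiv.addRight t))

theorem mean_spread [NeZero (d n)] (hU : ∀ j, Sl.Free (U j) n) {a : H →L[ℂ] H} (ha : Sl.Free a n) :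
    mean (shift Sl (n := n)) (spread Sl U * a * star (spread Sl U)) =
      (d n : ℂ)⁻¹ • ∑ j, U j * a * star (U j) := by
  set E : Fin (d n) → H →L[ℂ] H := fun j => Sl.L n (diag n j) with hE
  have hcs : ∀ j k, Commute (E k) (star (U j)) := fun j k => by
    have := (hU j (diag n k)).star_star
    rwa [(diag_sys (Sl.L n)).1] at this
  have e : spread Sl U * a * star (spread Sl U) = ∑ j, U j * a * star (U j) * E j := by
    rw [spread, Finset.sum_mul, star_sum, Finset.sum_mul_sum]
    refine Finset.sum_congr rfl fun j _ => ?_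
    rw [Finset.sum_eq_single j (fun k _ hk => ?_) (by simp)]
    · rw [star_mul, (diag_sys (Sl.L n)).1]
      calc U j * E j * a * (E j * star (U j)) = U j * (E j * a) * (E j * star (U j)) := by
            simp only [mul_assoc]
        _ = U j * a * (E j * E j) * star (U j) := by
            rw [(ha (diag n j)).eq]; simp only [mul_assoc]; rfl
        _ = U j * a * (E j * star (U j)) := by
            rw [show E j * E j = E j from ((diag_sys (Sl.L n)).2.1 j j).trans (if_pos rfl),
              mul_assoc]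
        _ = _ := by rw [(hcs j j).eq, mul_assoc (U j * a)]
    · rw [star_mul, (diag_sys (Sl.L n)).1]
      calc U j * E j * a * (E k * star (U k)) = U j * (E j * a) * (E k * star (U k)) := by
            simp only [mul_assoc]
        _ = U j * a * (E j * E k) * star (U k) := by
            rw [(ha (diag n j)).eq]; simp only [mul_assoc]; rfl
        _ = 0 := by
            rw [show E j * E k = 0 from ((diag_sys (Sl.L n)).2.1 j k).trans (if_neg (Ne.symm hk)),
              mul_zero, zero_mul]
  rw [e, mean, Fintype.card_fin]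
  refine congrArg _ ?_
  simp only [Finset.mul_sum, Finset.sum_mul]
  rw [Finset.sum_comm]
  refine Finset.sum_congr rfl fun j _ => ?_
  have hb : ∀ t : Fin (d n), Commute (shift Sl t) (U j * a * star (U j)) := fun t => by
    refine ((hU j _).mul_right (ha _)).mul_right ?_
    have := (hU j (star (sgnPerm (fun _ => true, Equiv.addRight t)))).star_star
    rwa [← map_star, star_star] at this
  calc ∑ t, shift Sl t * (U j * a * star (U j) * E j) * star (shift Sl t)
      = ∑ t, U j * a * star (U j) * E (j - t) := Finset.sum_congr rfl fun t _ => by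
        rw [← mul_assoc, (hb t).eq, mul_assoc _ (shift Sl t), mul_assoc]
        refine congrArg (fun x => U j * a * star (U j) * x) ?_
        have h := perm_diag (Equiv.addRight t) (j - t)
        simp only [Equiv.coe_addRight, sub_add_cancel] at h
        rw [hE, shift, ← map_mul, h, ← map_star, ← map_mul, mul_assoc, sgnPerm_mul_star, mul_one]
    _ = U j * a * star (U j) := by
        rw [← Finset.mul_sum, show ∑ t, E (j - t) = ∑ k, E k from Equiv.sum_comp (Equiv.subLeft j) E,
          show ∑ k, E k = 1 from (diag_sys (Sl.L n)).2.2, mul_one]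

end Spread

end Vale.Agent.P096.III.Frame
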