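import Vale.Agent.P096.III.Frame.Spread

/-!
# P096, type III Frame: one step of the tower

A state is a unitary `V`, a commutant unitary `c` and a finite group `A` on finitely many used
slots; its groups are `V* A V` and its vector is `V* c Ω`. One step brings one selfadjoint element
averaged over the groups near the centre and moves the vector as little as wanted.
-/

namespace Vale.Agent.P096.III.Frame

open scoped InnerProductSpace Topology
open scoped Classical
open Vale.Agent.P132 (IsCS)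
open Vale.Agent.P096.III.Tensor (sgnPerm sgnPerm_one sgnPerm_mul star_sgnPerm)

universe u

variable {H : Type u} [NormedAddCommGroup H] [InnerProductSpace ℂ H] [CompleteSpace H]
  {M : VonNeumannAlgebra H} {Ω : H} {d : ℕ → ℕ}

/-- The state of the tower. -/
structure St (Sl : Slots M d) (Ω : H) where
  /-- the conjugator -/
  V : H →L[ℂ] H
  /-- its partner -/
  c : H →L[ℂ] H
  /-- the group before conjugation -/
  A : Finset (H →L[ℂ] H)
  /-- the used slots -/
  S : Finset ℕ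
  /-- a bound for everything -/
  N₀ : ℕ
  V_mem : V ∈ M
  V_unit : V ∈ unitary (H →L[ℂ] H)
  c_mem : c ∈ M.commutant
  c_unit : c ∈ unitary (H →L[ℂ] H)
  below : ∀ n ∈ S, n < N₀
  V_free : ∀ n, N₀ ≤ n → Sl.Free V n
  one_mem : 1 ∈ A
  mul_mem : ∀ g ∈ A, ∀ h ∈ A, g * h ∈ A
  star_mem : ∀ g ∈ A, star g ∈ A
  unit : ∀ g ∈ A, g ∈ unitary (H →L[ℂ] H)
  mem : ∀ g ∈ A, g ∈ M
  wit : ∀ g ∈ A, Wit M Ω g
  comm_of : ∀ y, (∀ n ∈ S, Sl.Free y n) → ∀ g ∈ A, Commute g y
  free_of : ∀ y, (∀ g ∈ A, Commute g y) → ∀ n ∈ S, Sl.Free y n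

variable {Sl : Slots M d}

/-- The groups. -/
noncomputable def St.P (s : St Sl Ω) : Finset (H →L[ℂ] H) :=
  s.A.image fun g => star s.V * g * s.V

/-- The vector. -/
noncomputable def St.vec (s : St Sl Ω) : H := Frame.vec Ω s.V s.c

/-- The start. -/
noncomputable def St.init (Sl : Slots M d) (Ω : H) : St Sl Ω where
  V := 1
  c := 1
  A := {1}
  S := ∅
  N₀ := 0
  V_mem := OneMemClass.one_mem M
  V_unit := Submonoid.one_mem _
  c_mem := OneMemClass.one_mem _
  c_unit := Submonoid.one_mem _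
  below := by simp
  V_free := fun _ _ A => Commute.one_right _
  one_mem := Finset.mem_singleton_self 1
  mul_mem := by simp
  star_mem := by simp
  unit := fun g hg => by rw [Finset.mem_singleton.1 hg]; exact Submonoid.one_mem _
  mem := fun g hg => by rw [Finset.mem_singleton.1 hg]; exact OneMemClass.one_mem M
  wit := fun g hg => by rw [Finset.mem_singleton.1 hg]; exact wit_one
  comm_of := fun y _ g hg => by rw [Finset.mem_singleton.1 hg]; exact Commute.one_left y
  free_of := by simp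

theorem St.vec_cs (hcs : IsCS M Ω) (s : St Sl Ω) : IsCS M s.vec :=
  Frame.vec_cs hcs s.V_mem s.V_unit s.c_mem s.c_unit

theorem St.mem_P (s : St Sl Ω) {g : H →L[ℂ] H} (hg : g ∈ s.P) : g ∈ M := by
  obtain ⟨a, ha, rfl⟩ := Finset.mem_image.1 hg
  exact MulMemClass.mul_mem (MulMemClass.mul_mem (StarMemClass.star_mem s.V_mem) (s.mem a ha)) s.V_mem

theorem St.unit_P (s : St Sl Ω) {g : H →L[ℂ] H} (hg : g ∈ s.P) : g ∈ unitary (H →L[ℂ] H) := by
  obtain ⟨a, ha, rfl⟩ := Finset.mem_image.1 hg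
  exact MulMemClass.mul_mem (MulMemClass.mul_mem (Unitary.star_mem s.V_unit) (s.unit a ha)) s.V_unit

theorem St.one_P (s : St Sl Ω) : 1 ∈ s.P :=
  Finset.mem_image.2 ⟨1, s.one_mem, by rw [mul_one, Unitary.star_mul_self_of_mem s.V_unit]⟩

theorem St.mul_P (s : St Sl Ω) {g h : H →L[ℂ] H} (hg : g ∈ s.P) (hh : h ∈ s.P) : g * h ∈ s.P := by
  obtain ⟨a, ha, rfl⟩ := Finset.mem_image.1 hg
  obtain ⟨b, hb, rfl⟩ := Finset.mem_image.1 hh
  refine Finset.mem_image.2 ⟨a * b, s.mul_mem a ha b hb, ?_⟩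
  calc star s.V * (a * b) * s.V = star s.V * a * (s.V * star s.V) * b * s.V := by
        rw [Unitary.mul_star_self_of_mem s.V_unit, mul_one]; simp only [mul_assoc]
    _ = _ := by simp only [mul_assoc]

theorem St.star_P (s : St Sl Ω) {g : H →L[ℂ] H} (hg : g ∈ s.P) : star g ∈ s.P := by
  obtain ⟨a, ha, rfl⟩ := Finset.mem_image.1 hg
  exact Finset.mem_image.2 ⟨star a, s.star_mem a ha, by
    rw [star_mul, star_mul, star_star, mul_assoc]⟩

theorem St.wit_P (s : St Sl Ω) {g : H →L[ℂ] H} (hg : g ∈ s.P) : Wit M s.vec g := by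
  obtain ⟨a, ha, rfl⟩ := Finset.mem_image.1 hg
  exact wit_vec s.V_mem s.V_unit s.c_mem s.c_unit (s.mem a ha) (s.wit a ha)

/-- What commutes with the groups, moved to the frame of the slots. -/
theorem St.commute_conj (s : St Sl Ω) {y : H →L[ℂ] H} (h : ∀ g ∈ s.P, Commute g y)
    {a : H →L[ℂ] H} (ha : a ∈ s.A) : Commute a (s.V * y * star s.V) := by
  have e := (h _ (Finset.mem_image_of_mem _ ha)).eq
  have h1 := congrArg (fun x => s.V * x * star s.V) e
  have hu := Unitary.mul_star_self_of_mem s.V_unit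
  calc a * (s.V * y * star s.V) = s.V * (star s.V * a * s.V * y) * star s.V := by
        simp only [← mul_assoc, hu, one_mul]
    _ = s.V * (y * (star s.V * a * s.V)) * star s.V := h1
    _ = _ := by simp only [mul_assoc, hu, mul_one]

/-- The signed permutations of a slot. -/
noncomputable def slotGroup (Sl : Slots M d) (n : ℕ) : Finset (H →L[ℂ] H) :=
  Finset.univ.image fun x => Sl.L n (sgnPerm x)

theorem free_of_slotGroup {n : ℕ} {y : H →L[ℂ] H} (h : ∀ g ∈ slotGroup Sl n, Commute g y) :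
    Sl.Free y n := by
  have hg : ∀ x, Commute (Sl.L n (sgnPerm x)) y := fun x =>
    h _ (Finset.mem_image_of_mem _ (Finset.mem_univ x))
  have hs : ∀ a b : Fin (d n), Matrix.single a b (1 : ℂ) = (2⁻¹ : ℂ) •
      (sgnPerm (fun _ => true, Equiv.swap a b) +
        sgnPerm (fun i => decide (i = a), Equiv.swap a b)) := by
    intro a b
    ext i j
    simp only [Matrix.smul_apply, Matrix.add_apply, sgnPerm, Matrix.of_apply, Matrix.single_apply,
      smul_eq_mul]
    by_cases hi : i = a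
    · subst hi
      by_cases hj : b = j <;> simp [hj]
      norm_num
    · by_cases hj : Equiv.swap a b i = j <;> simp [hi, hj, Ne.symm hi]
  intro B
  rw [Matrix.matrix_eq_sum_single B, map_sum]
  refine Commute.sum_left _ _ _ fun a _ => ?_
  rw [map_sum]
  refine Commute.sum_left _ _ _ fun b _ => ?_
  rw [show Matrix.single a b (B a b) = B a b • Matrix.single a b (1 : ℂ) by
    rw [Matrix.smul_single, smul_eq_mul, mul_one], hs, map_smul, map_smul, map_add]
  exact (((hg _).add_left (hg _)).smul_left _).smul_left _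

variable (Sl) in
/-- A trace slot gives witnesses. -/
theorem wit_slot {n : ℕ} (ht : Sl.Trace Ω n) (B : Matrix (Fin (d n)) (Fin (d n)) ℂ) :
    Wit M Ω (Sl.L n B) := by
  refine ⟨Sl.R n B.transpose, Sl.R_mem n _, ht B, ?_⟩
  rw [← map_star, ← map_star, ht]
  rfl

theorem exists_extend (s : St Sl Ω) {n : ℕ} (hn : s.N₀ ≤ n) (ht : Sl.Trace Ω n)
    {W c₁ : H →L[ℂ] H} (hW : W ∈ M) (hWu : W ∈ unitary (H →L[ℂ] H)) (hc₁ : c₁ ∈ M.commutant)
    (hc₁u : c₁ ∈ unitary (H →L[ℂ] H)) (hS : ∀ m ∈ s.S, Sl.Free W m) {N₁ : ℕ}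
    (hN : ∀ m, N₁ ≤ m → Sl.Free W m) :
    ∃ s' : St Sl Ω, s.P ⊆ s'.P ∧ s'.V = W * s.V ∧ s'.c = s.c * c₁ ∧
      s.A ⊆ s'.A ∧ slotGroup Sl n ⊆ s'.A := by

  have hnS : ∀ m ∈ s.S, m ≠ n := fun m hm => (lt_of_lt_of_le (s.below m hm) hn).ne
  have hab : ∀ a ∈ s.A, ∀ B, Commute a (Sl.L n B) := fun a ha B =>
    s.comm_of _ (fun m hm A => Sl.comm m n (hnS m hm) A B) a ha
  set B := slotGroup Sl n with hB
  have hBm : ∀ {g}, g ∈ B ↔ ∃ x, Sl.L n (sgnPerm x) = g := fun {g} => by
    simp [hB, slotGroup]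
  have hB1 : 1 ∈ B := hBm.2 ⟨(fun _ => true, 1), by rw [sgnPerm_one, map_one]⟩
  let s' : St Sl Ω :=
    { V := W * s.V
      c := s.c * c₁
      A := Finset.image₂ (· * ·) s.A B
      S := insert n s.S
      N₀ := max (max s.N₀ N₁) (n + 1)
      V_mem := MulMemClass.mul_mem hW s.V_mem
      V_unit := MulMemClass.mul_mem hWu s.V_unit
      c_mem := MulMemClass.mul_mem s.c_mem hc₁
      c_unit := MulMemClass.mul_mem s.c_unit hc₁u
      below := fun m hm => by
        rcases Finset.mem_insert.1 hm with rfl | hm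
        · omega
        · have := s.below m hm; omega
      V_free := fun m hm A => ((hN m (by omega)) A).mul_right ((s.V_free m (by omega)) A)
      one_mem := Finset.mem_image₂.2 ⟨1, s.one_mem, 1, hB1, mul_one 1⟩
      mul_mem := fun g hg h hh => by
        obtain ⟨a, ha, _, hb, rfl⟩ := Finset.mem_image₂.1 hg
        obtain ⟨a', ha', _, hb', rfl⟩ := Finset.mem_image₂.1 hh
        obtain ⟨x, rfl⟩ := hBm.1 hb
        obtain ⟨y, rfl⟩ := hBm.1 hb'
        refine Finset.mem_image₂.2 ⟨a * a', s.mul_mem a ha a' ha', Sl.L n (sgnPerm x) * Sl.L n (sgnPerm y),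
          hBm.2 ⟨_, by rw [← map_mul, sgnPerm_mul]⟩, ?_⟩
        rw [mul_assoc, ← mul_assoc a', (hab a' ha' _).eq]
        simp only [mul_assoc]
      star_mem := fun g hg => by
        obtain ⟨a, ha, _, hb, rfl⟩ := Finset.mem_image₂.1 hg
        obtain ⟨x, rfl⟩ := hBm.1 hb
        refine Finset.mem_image₂.2 ⟨star a, s.star_mem a ha, star (Sl.L n (sgnPerm x)),
          hBm.2 ⟨_, by rw [← map_star, star_sgnPerm]⟩, ?_⟩
        rw [← star_mul, ← (hab a ha _).eq]
      unit := fun g hg => by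
        obtain ⟨a, ha, _, hb, rfl⟩ := Finset.mem_image₂.1 hg
        obtain ⟨x, rfl⟩ := hBm.1 hb
        exact MulMemClass.mul_mem (s.unit a ha) (Unitary.map_mem _ (Unitary.mem_iff.2
          ⟨mul_eq_one_comm.1 (sgnPerm_mul_star x), sgnPerm_mul_star x⟩))
      mem := fun g hg => by
        obtain ⟨a, ha, _, hb, rfl⟩ := Finset.mem_image₂.1 hg
        obtain ⟨x, rfl⟩ := hBm.1 hb
        exact MulMemClass.mul_mem (s.mem a ha) (Sl.L_mem n _)
      wit := fun g hg => by
        obtain ⟨a, ha, _, hb, rfl⟩ := Finset.mem_image₂.1 hg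
        obtain ⟨x, rfl⟩ := hBm.1 hb
        exact wit_mul (s.mem a ha) (Sl.L_mem n _) (s.wit a ha) (wit_slot Sl ht _)
      comm_of := fun y hy g hg => by
        obtain ⟨a, ha, _, hb, rfl⟩ := Finset.mem_image₂.1 hg
        obtain ⟨x, rfl⟩ := hBm.1 hb
        exact (s.comm_of y (fun m hm => hy m (Finset.mem_insert_of_mem hm)) a ha).mul_left
          (hy n (Finset.mem_insert_self n _) _)
      free_of := fun y hy m hm => by
        rcases Finset.mem_insert.1 hm with rfl | hm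
        · exact free_of_slotGroup fun g hg =>
            hy g (Finset.mem_image₂.2 ⟨1, s.one_mem, g, hg, one_mul g⟩)
        · exact s.free_of y (fun g hg => hy g (Finset.mem_image₂.2 ⟨g, hg, 1, hB1, mul_one g⟩)) m hm }
  refine ⟨s', fun g hg => ?_, rfl, rfl,
    fun g hg => Finset.mem_image₂.2 ⟨g, hg, 1, hB1, mul_one g⟩,
    fun g hg => Finset.mem_image₂.2 ⟨1, s.one_mem, g, hg, one_mul g⟩⟩
  obtain ⟨a, ha, rfl⟩ := Finset.mem_image.1 hg
  refine Finset.mem_image.2 ⟨a, Finset.mem_image₂.2 ⟨a, ha, 1, hB1, mul_one a⟩, ?_⟩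
  show star (W * s.V) * a * (W * s.V) = _
  calc star (W * s.V) * a * (W * s.V) = star s.V * (star W * (a * W)) * s.V := by
        simp only [star_mul, mul_assoc]
    _ = _ := by
        rw [(s.comm_of W hS a ha).eq, ← mul_assoc (star W), Unitary.star_mul_self_of_mem hWu,
          one_mul]

/-- One step. -/
theorem exists_step (hcs : IsCS M Ω)
    (htr : ∀ r N : ℕ, 0 < r → ∃ n, N ≤ n ∧ d n = r ∧ Sl.Trace Ω n) (hF : Flat Sl Ω)
    (s : St Sl Ω) {x : H →L[ℂ] H} (hx : x ∈ M) (hxs : star x = x) {Nx : ℕ}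
    (hxN : ∀ n, Nx ≤ n → Sl.Free x n) {η δ : ℝ} (hη : 0 < η) (hδ : 0 < δ) :
    ∃ s' : St Sl Ω, s.P ⊆ s'.P ∧ ‖s'.vec - s.vec‖ ≤ δ ∧
      ∀ y ∈ M, (∀ g ∈ s'.P, Commute g y) → ∃ z, InCentre M z ∧ ‖z‖ ≤ ‖x‖ ∧
        ‖(y - z) s'.vec‖ ≤ ‖(y - x) s'.vec‖ + η := by
  have : Nonempty s.A := ⟨⟨1, s.one_mem⟩⟩
  set p : s.A → H →L[ℂ] H := fun g => (g : H →L[ℂ] H) with hp
  have hpm : ∀ g, p g ∈ M := fun g => s.mem _ g.2
  have hpu : ∀ g, p g ∈ unitary (H →L[ℂ] H) := fun g => s.unit _ g.2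
  have hpw : ∀ g, Wit M Ω (p g) := fun g => s.wit _ g.2
  set u := s.V * x * star s.V with hu
  have hum : u ∈ M := MulMemClass.mul_mem (MulMemClass.mul_mem s.V_mem hx) (StarMemClass.star_mem s.V_mem)
  set a := mean p u with ha
  have has : star a = a := star_mean p (by rw [hu, star_mul, star_mul, star_star, hxs, mul_assoc])
  have haS : ∀ n ∈ s.S, Sl.Free a n :=
    s.free_of a fun g hg => commute_mean s.mul_mem s.star_mem s.unit hg u
  have hufar : ∀ n, max s.N₀ Nx ≤ n → Sl.Free u n := fun n hn A => by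
    have hV := s.V_free n (le_trans (le_max_left _ _) hn)
    refine ((hV A).mul_right (hxN n (le_trans (le_max_right _ _) hn) A)).mul_right ?_
    have := (hV (star A)).star_star
    rwa [← map_star, star_star] at this
  have hafar : ∀ n, max s.N₀ Nx ≤ n → Sl.Free a n := fun n hn A => by
    have hgA : ∀ (B : Matrix (Fin (d n)) (Fin (d n)) ℂ), ∀ g ∈ s.A, Commute (Sl.L n B) g :=
      fun B g hg => (s.comm_of _ (fun m hm A' => Sl.comm m n
        (lt_of_lt_of_le (s.below m hm) (le_trans (le_max_left _ _) hn)).ne A' B) g hg).symm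
    refine (Commute.sum_right _ _ _ fun g _ => ?_).smul_right _
    exact ((hgA A _ g.2).mul_right (hufar n hn A)).mul_right (hgA A _ (s.star_mem _ g.2))
  obtain ⟨r, N₁, U, z, hr, hU, hz, hzn, hzb⟩ :=
    hF s.S a (mean_mem hpm hum) has haS ⟨_, hafar⟩ η δ hη hδ
  obtain ⟨n, hn, hdn, ht⟩ := htr r (max (max s.N₀ Nx) N₁) hr
  subst hdn
  have : NeZero (d n) := ⟨hr.ne'⟩
  choose U' hU'm hU'u hU'f hU'd using fun j => (hU j).2.2.2.2
  have hN₀n : s.N₀ ≤ n := by omega
  have hfn : ∀ j, Sl.Free (U j) n := fun j => (hU j).2.2.2.1 n (by omega)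
  set W := spread Sl U with hW
  have hWm : W ∈ M := spread_mem Sl fun j => (hU j).1
  have hWu : W ∈ unitary (H →L[ℂ] H) := spread_unitary Sl (fun j => (hU j).2.1) hfn
  set c₁ := spreadR Sl U' with hc₁
  have hc₁m : c₁ ∈ M.commutant := spreadR_mem Sl hU'm
  have hc₁u : c₁ ∈ unitary (H →L[ℂ] H) := spreadR_unitary Sl hU'u fun j => hU'f j n (by omega)
  have hWS : ∀ m ∈ s.S, Sl.Free W m := fun m hm =>
    spread_free Sl (lt_of_lt_of_le (s.below m hm) hN₀n).ne fun j => (hU j).2.2.1 m hm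
  obtain ⟨s', hPP, hV', hc', hAA, hBA⟩ := exists_extend s hN₀n ht hWm hWu hc₁m hc₁u hWS
    (N₁ := max N₁ (n + 1)) fun m hm =>
      spread_free Sl (by omega) fun j => (hU j).2.2.2.1 m (by omega)
  refine ⟨s', hPP, ?_, fun y hy hyc => ⟨z, hz, hzn.trans ?_, ?_⟩⟩
  · rw [St.vec, St.vec, hV', hc', dist_vec s.V_unit s.c_mem s.c_unit hWm hWu]
    exact norm_spread_sub_le Sl ht hr (fun j => (hU j).1) hU'm hfn (fun j => hU'f j n (by omega))
      hδ.le hU'd
  · refine (norm_mean_le hpu u).trans ?_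
    rw [hu, CStarRing.norm_mul_mem_unitary _ (Unitary.star_mem s.V_unit),
      CStarRing.norm_mem_unitary_mul _ s.V_unit]
  have hzc : Commute s'.V z := VonNeumannAlgebra.mem_commutant_iff.1 hz.2 _ s'.V_mem
  have hz' : s'.V * z * star s'.V = z := by
    rw [hzc.eq, mul_assoc, Unitary.mul_star_self_of_mem s'.V_unit, mul_one]
  have hq : ∀ t : Fin (d n), shift Sl t ∈ slotGroup Sl n := fun t =>
    Finset.mem_image_of_mem _ (Finset.mem_univ _)
  have hqm : ∀ t : Fin (d n), shift Sl t ∈ M := fun t => Sl.L_mem n _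
  have hqu : ∀ t : Fin (d n), shift Sl t ∈ unitary (H →L[ℂ] H) := fun t => s'.unit _ (hBA (hq t))
  have hqw : ∀ t : Fin (d n), Wit M Ω (shift Sl t) := fun t => wit_slot Sl ht _
  -- in the frame of the slots
  set y' := s'.V * y * star s'.V with hy'
  set x' := s'.V * x * star s'.V with hx'
  have hy'm : y' ∈ M :=
    MulMemClass.mul_mem (MulMemClass.mul_mem s'.V_mem hy) (StarMemClass.star_mem s'.V_mem)
  have hx'm : x' ∈ M :=
    MulMemClass.mul_mem (MulMemClass.mul_mem s'.V_mem hx) (StarMemClass.star_mem s'.V_mem)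
  have hfix : mean (shift Sl (n := n)) (mean p y') = y' := by
    rw [mean_of_commute hpu fun g => s'.commute_conj hyc (hAA g.2),
      mean_of_commute hqu fun t => s'.commute_conj hyc (hBA (hq t))]
  have hxW : mean p x' = W * a * star W := by
    rw [hx', hV', star_mul,
      show W * s.V * x * (star s.V * star W) = W * u * star W by rw [hu]; simp only [mul_assoc],
      mean_conj fun g => s.comm_of W hWS _ g.2]
  have hM : ‖(mean (shift Sl (n := n)) (mean p x') - z) Ω‖ ≤ η := by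
    rw [hxW, hW, mean_spread Sl hfn (hafar n (by omega))]
    exact hzb
  rw [St.vec, norm_apply_vec s'.V_mem s'.V_unit s'.c_mem s'.c_unit (sub_mem hy hz.1),
    norm_apply_vec s'.V_mem s'.V_unit s'.c_mem s'.c_unit (sub_mem hy hx)]
  have e1 : s'.V * (y - z) * star s'.V =
      mean (shift Sl (n := n)) (mean p (y' - x')) + (mean (shift Sl (n := n)) (mean p x') - z) := by
    rw [mean_sub, mean_sub, hfix, mul_sub, sub_mul, hz', ← hy']
    abel
  have e2 : s'.V * (y - x) * star s'.V = y' - x' := by rw [mul_sub, sub_mul]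
  rw [e1, e2, add_apply]
  refine (norm_add_le _ _).trans (add_le_add ?_ hM)
  exact (norm_mean_apply_le hcs hqm hqu hqw (mean_mem hpm (sub_mem hy'm hx'm))).trans
    (norm_mean_apply_le hcs hpm hpu hpw (sub_mem hy'm hx'm))

end Vale.Agent.P096.III.Frame
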