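import Vale.Agent.P096.III.Frame.Step

/-!
# P096, type III Frame: the tower

Slots with flattening give a vector and increasing finite groups centralising it exactly, with
relative commutant in the centre.
-/

namespace Vale.Agent.P096.III.Frame

open scoped InnerProductSpace Topology
open scoped Classical
open Filter
open Vale.Agent.P132 (IsCS)

universe u

variable {H : Type u} [NormedAddCommGroup H] [InnerProductSpace ℂ H] [CompleteSpace H]
  {M : VonNeumannAlgebra H} {Ω : H} {d : ℕ → ℕ} {Sl : Slots M d}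

omit [CompleteSpace H] in
/-- A countable part of a set of operators, dense at one vector. -/
theorem exists_seq_dense [TopologicalSpace.SeparableSpace H] (S : Set (H →L[ℂ] H))
    (hne : S.Nonempty) (Ω : H) :
    ∃ f : ℕ → H →L[ℂ] H, (∀ i, f i ∈ S) ∧ ∀ x ∈ S, ∀ η : ℝ, 0 < η → ∃ i, ‖(f i - x) Ω‖ ≤ η := by
  have : SecondCountableTopology H := UniformSpace.secondCountable_of_separable H
  have : Nonempty ((fun x : H →L[ℂ] H => x Ω) '' S) := (hne.image _).to_subtype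
  have key : ∀ i, ∃ x ∈ S, x Ω = (TopologicalSpace.denseSeq ((fun x : H →L[ℂ] H => x Ω) '' S) i : H) :=
    fun i => (TopologicalSpace.denseSeq ((fun x : H →L[ℂ] H => x Ω) '' S) i).2
  choose f hf hfe using key
  refine ⟨f, hf, fun x hx η hη => ?_⟩
  obtain ⟨i, hi⟩ := (TopologicalSpace.denseRange_denseSeq
    ((fun x : H →L[ℂ] H => x Ω) '' S)).exists_dist_lt ⟨x Ω, x, hx, rfl⟩ hη
  refine ⟨i, ?_⟩
  rw [sub_apply, hfe, ← dist_eq_norm, dist_comm]
  exact hi.le

/-- A countable list of selfadjoint elements away from far slots. -/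
theorem exists_list [TopologicalSpace.SeparableSpace H] (hcs : IsCS M Ω) (hT : Trunc Sl Ω) :
    ∃ X : ℕ → H →L[ℂ] H, (∀ i, X i ∈ M ∧ star (X i) = X i ∧ ∃ N, ∀ n, N ≤ n → Sl.Free (X i) n) ∧
      ∀ x ∈ M, star x = x → ∃ R : ℝ, ∀ v : H, ∀ η : ℝ, 0 < η →
        ∃ i, ‖X i‖ ≤ R ∧ ‖x‖ ≤ R ∧ ‖(X i - x) v‖ ≤ η := by
  set S : ℕ → Set (H →L[ℂ] H) := fun r =>
    {x | x ∈ M ∧ star x = x ∧ ‖x‖ ≤ r ∧ ∃ N, ∀ n, N ≤ n → Sl.Free x n}
  have hne : ∀ r, (S r).Nonempty := fun r => ⟨0, zero_mem M, star_zero _, by simp, 0,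
    fun n _ A => Commute.zero_right _⟩
  choose f hf hfd using fun r => exists_seq_dense (S r) (hne r) Ω
  refine ⟨fun i => f i.unpair.1 i.unpair.2, fun i => ?_, fun x hx hxs => ⟨⌈‖x‖⌉₊, fun v η hη => ?_⟩⟩
  · obtain ⟨h1, h2, -, h3⟩ := hf i.unpair.1 i.unpair.2
    exact ⟨h1, h2, h3⟩
  set R : ℕ := ⌈‖x‖⌉₊
  have hR : ‖x‖ ≤ R := Nat.le_ceil _
  have h0 := Pin.dense_commutant hcs v
  rw [Pin.orbit, ← SetLike.mem_coe, Submodule.topologicalClosure_coe, Metric.mem_closure_iff] at h0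
  obtain ⟨_, ⟨y, rfl⟩, hy⟩ := h0 (η / (4 * ((R : ℝ) + 1))) (by positivity)
  rw [dist_eq_norm] at hy
  change ‖v - (y : H →L[ℂ] H) Ω‖ < _ at hy
  set t := η / (4 * (‖(y : H →L[ℂ] H)‖ + 1)) with ht
  obtain ⟨x', hx', hxs', hxn', hxe, hfar⟩ := hT x hx hxs t (by positivity)
  obtain ⟨i, hi⟩ := hfd R x' ⟨hx', hxs', hxn'.trans hR, hfar⟩ t (by positivity)
  refine ⟨Nat.pair R i, ?_, hR, ?_⟩
  · simp only [Nat.unpair_pair]
    exact (hf R i).2.2.1
  simp only [Nat.unpair_pair]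
  have h1 : ‖(f R i - x) Ω‖ ≤ t + t := by
    have := norm_add_le ((f R i - x') Ω) ((x' - x) Ω)
    rw [← add_apply, sub_add_sub_cancel] at this
    linarith
  have hm : f R i - x ∈ M := sub_mem (hf R i).1 hx
  have h2 : ‖f R i - x‖ ≤ 2 * ((R : ℝ) + 1) := by
    have := (norm_sub_le (f R i) x).trans (add_le_add (hf R i).2.2.1 hR)
    linarith
  have e : (f R i - x) v = (f R i - x) (v - (y : H →L[ℂ] H) Ω) +
      (y : H →L[ℂ] H) ((f R i - x) Ω) := by
    rw [← comm_app hm y.2, ← map_add, sub_add_cancel]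
  rw [e]
  refine (norm_add_le _ _).trans ((add_le_add ((f R i - x).le_opNorm_of_le hy.le)
    ((y : H →L[ℂ] H).le_opNorm_of_le h1)).trans ?_)
  have ha : ‖f R i - x‖ * (η / (4 * ((R : ℝ) + 1))) ≤ η / 2 := by
    refine (mul_le_mul_of_nonneg_right h2 (by positivity)).trans (le_of_eq ?_)
    field_simp
    ring
  have hb : ‖(y : H →L[ℂ] H)‖ * (t + t) ≤ η / 2 := by
    rw [ht]
    field_simp
    nlinarith
  linarith

/-- Selfadjoint parts. -/
theorem mem_commutant_of_parts {x : H →L[ℂ] H}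
    (h : ∀ y : H →L[ℂ] H, (y = x + star x ∨ y = Complex.I • (x - star x)) → y ∈ M.commutant) :
    x ∈ M.commutant := by
  have e : x = (2⁻¹ : ℂ) • (x + star x) + (-(2⁻¹ : ℂ) * Complex.I) • (Complex.I • (x - star x)) := by
    rw [smul_smul, mul_assoc, Complex.I_mul_I]
    simp only [smul_add, smul_sub]
    module
  rw [e]
  exact add_mem (M.commutant.toStarSubalgebra.smul_mem (h _ (Or.inl rfl)) _)
    (M.commutant.toStarSubalgebra.smul_mem (h _ (Or.inr rfl)) _)

theorem norm_star_apply_of_comm {T : H →L[ℂ] H} (h : T * star T = star T * T) (v : H) :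
    ‖star T v‖ = ‖T v‖ := by
  rw [norm_eq_sqrt_re_inner (𝕜 := ℂ), norm_eq_sqrt_re_inner (𝕜 := ℂ)]
  congr 2
  rw [ContinuousLinearMap.star_eq_adjoint, ContinuousLinearMap.adjoint_inner_left,
    ← ContinuousLinearMap.adjoint_inner_right T, ← ContinuousLinearMap.star_eq_adjoint]
  exact congrArg (fun f : H →L[ℂ] H => ⟪v, f v⟫_ℂ) h

/-- Slots with flattening give the groups. -/
theorem exists_grps [TopologicalSpace.SeparableSpace H] (hcs : IsCS M Ω)
    (htr : ∀ r N : ℕ, 0 < r → ∃ n, N ≤ n ∧ d n = r ∧ Sl.Trace Ω n) (hF : Flat Sl Ω)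
    (hT : Trunc Sl Ω) : ∃ (Ω' : H) (P : ℕ → Finset (H →L[ℂ] H)), Grps M Ω' P := by
  obtain ⟨X, hX, hXd⟩ := exists_list hcs hT
  have : Nonempty H := ⟨0⟩
  set ξ := TopologicalSpace.denseSeq H
  have hp : ∀ k : ℕ, (0 : ℝ) < ((k : ℝ) + 1)⁻¹ := fun k => by positivity
  -- witnesses of cyclicity
  choose T hTm hTe using fun (s : St Sl Ω) (i k : ℕ) => (s.vec_cs hcs).cyclic (ξ i) _ (hp k)
  choose T' hTm' hTe' using fun (s : St Sl Ω) (i k : ℕ) =>
    vec_cyclic' hcs s.V_mem s.V_unit s.c_mem s.c_unit (ξ i) (hp k)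
  let B : St Sl Ω → ℕ → ℝ := fun s k =>
    ∑ i ∈ Finset.range (k + 1), (‖T s i k‖ + ‖T' s i k‖)
  have hB : ∀ s k, 0 ≤ B s k := fun s k => Finset.sum_nonneg fun i _ => by positivity
  -- one step with the data of stage `k`
  have hs : ∀ (k : ℕ) (p : St Sl Ω × {K : ℝ // 1 ≤ K}),
      ∃ q : St Sl Ω × {K : ℝ // 1 ≤ K}, q.2.1 = p.2.1 + B p.1 k ∧ p.1.P ⊆ q.1.P ∧
        ‖q.1.vec - p.1.vec‖ ≤ (1 / 2) ^ k / (((k : ℝ) + 1) * q.2.1) ∧
        ∀ y ∈ M, (∀ g ∈ q.1.P, Commute g y) → ∃ z, InCentre M z ∧ ‖z‖ ≤ ‖X k.unpair.1‖ ∧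
          ‖(y - z) q.1.vec‖ ≤ ‖(y - X k.unpair.1) q.1.vec‖ + ((k : ℝ) + 1)⁻¹ := by
    intro k p
    have hK : 1 ≤ p.2.1 + B p.1 k := le_add_of_le_of_nonneg p.2.2 (hB _ _)
    obtain ⟨hx, hxs, N, hN⟩ := hX k.unpair.1
    obtain ⟨s', h1, h2, h3⟩ := exists_step hcs htr hF p.1 hx hxs hN (hp k)
      (δ := (1 / 2) ^ k / (((k : ℝ) + 1) * (p.2.1 + B p.1 k))) (by
        have : (0 : ℝ) < p.2.1 + B p.1 k := by linarith
        positivity)
    exact ⟨(s', ⟨_, hK⟩), rfl, h1, h2, h3⟩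
  choose F hFK hFP hFd hFf using hs
  let Q : ℕ → St Sl Ω × {K : ℝ // 1 ≤ K} :=
    fun k => Nat.rec (St.init Sl Ω, ⟨1, le_rfl⟩) F k
  have hQ : ∀ k, Q (k + 1) = F k (Q k) := fun k => rfl
  set v : ℕ → H := fun k => (Q k).1.vec with hv
  set K : ℕ → ℝ := fun k => (Q (k + 1)).2.1 with hK
  have hK1 : ∀ k, 1 ≤ K k := fun k => (Q (k + 1)).2.2
  have hKm : Monotone K := monotone_nat_of_le_succ fun k => by
    exact (le_add_of_nonneg_right (hB (Q (k + 1)).1 (k + 1))).trans_eq (hFK (k + 1) (Q (k + 1))).symm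
  have hKB : ∀ k, B (Q k).1 k ≤ K k := fun k => by
    show _ ≤ (Q (k + 1)).2.1
    rw [hQ, hFK]
    linarith [(Q k).2.2]
  have hd : ∀ k, ‖v (k + 1) - v k‖ ≤ (1 / 2) ^ k / (((k : ℝ) + 1) * K k) := fun k => hFd k (Q k)
  have htail : ∀ k m, k ≤ m →
      ‖v m - v k‖ ≤ 2 * ((1 / 2) ^ k - (1 / 2) ^ m) / (((k : ℝ) + 1) * K k) := by
    intro k m hkm
    induction m, hkm using Nat.le_induction with
    | base => simp
    | succ m hkm ih =>
      have hk0 : 0 < K k := zero_lt_one.trans_le (hK1 k)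
      have h1 : (1 / 2 : ℝ) ^ m / (((m : ℝ) + 1) * K m) ≤ (1 / 2) ^ m / (((k : ℝ) + 1) * K k) := by
        refine div_le_div_of_nonneg_left (by positivity) (by positivity) ?_
        exact mul_le_mul (by exact_mod_cast Nat.succ_le_succ hkm) (hKm hkm) hk0.le (by positivity)
      refine (norm_sub_le_norm_sub_add_norm_sub _ (v m) _).trans ((add_le_add ((hd m).trans h1) ih).trans
        (le_of_eq ?_))
      rw [← add_div, pow_succ (1 / 2 : ℝ) m]
      ring
  have hbd : ∀ k m, k ≤ m → ‖v m - v k‖ ≤ 2 / (((k : ℝ) + 1) * K k) := fun k m hkm => by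
    refine (htail k m hkm).trans (div_le_div_of_nonneg_right ?_ ?_)
    · have h1 : (1 / 2 : ℝ) ^ k ≤ 1 := pow_le_one₀ (by norm_num) (by norm_num)
      have h2 : (0 : ℝ) ≤ (1 / 2) ^ m := by positivity
      linarith
    · have := zero_lt_one.trans_le (hK1 k)
      positivity
  have hcau : CauchySeq v := by
    refine cauchySeq_of_le_geometric (1 / 2) 1 (by norm_num) fun k => ?_
    rw [dist_comm, dist_eq_norm, one_mul]
    refine (hd k).trans (div_le_self (by positivity) ?_)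
    exact one_le_mul_of_one_le_of_one_le (by linarith [(k.cast_nonneg : (0 : ℝ) ≤ (k : ℝ))]) (hK1 k)
  obtain ⟨w, hw⟩ := cauchySeq_tendsto_of_complete hcau
  have hwd : ∀ k, ‖w - v k‖ ≤ 2 / (((k : ℝ) + 1) * K k) := fun k =>
    le_of_tendsto ((hw.sub_const (v k)).norm) ((eventually_ge_atTop k).mono fun m hm => hbd k m hm)
  have hwd1 : ∀ k, ‖w - v k‖ ≤ 2 / ((k : ℝ) + 1) := fun k => (hwd k).trans
    (div_le_div_of_nonneg_left zero_le_two (by positivity)
      (le_mul_of_one_le_right (by positivity) (hK1 k)))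
  -- witnesses stay
  have wit : ∀ (i k : ℕ) (A : H →L[ℂ] H), ‖A (v k) - ξ i‖ ≤ ((k : ℝ) + 1)⁻¹ → ‖A‖ ≤ K k →
      ‖A w - ξ i‖ ≤ 3 / ((k : ℝ) + 1) := fun i k A hA hAK => by
    have h1 : ‖A (w - v k)‖ ≤ 2 / ((k : ℝ) + 1) := by
      refine ((A.le_opNorm _).trans (mul_le_mul hAK (hwd k) (norm_nonneg _)
        (zero_le_one.trans (hK1 k)))).trans (le_of_eq ?_)
      have := zero_lt_one.trans_le (hK1 k)
      field_simp
    have e : A w - ξ i = A (w - v k) + (A (v k) - ξ i) := by rw [map_sub]; abel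
    rw [e]
    refine (norm_add_le _ _).trans ((add_le_add h1 hA).trans (le_of_eq ?_))
    rw [inv_eq_one_div, ← add_div]
    norm_num
  have dense : ∀ (p : H) (η : ℝ), 0 < η → ∃ i k : ℕ, i ≤ k ∧ ‖ξ i - p‖ + 3 / ((k : ℝ) + 1) ≤ η := by
    intro p η hη
    obtain ⟨i, hi⟩ := (TopologicalSpace.denseRange_denseSeq H).exists_dist_lt p (half_pos hη)
    obtain ⟨j, hj⟩ := exists_nat_gt (6 / η)
    refine ⟨i, max i j, le_max_left _ _, ?_⟩
    rw [dist_comm, dist_eq_norm] at hi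
    have h2 : 3 / (((max i j : ℕ) : ℝ) + 1) ≤ η / 2 := by
      rw [div_le_iff₀ (by positivity)]
      have h3 : (j : ℝ) ≤ ((max i j : ℕ) : ℝ) := Nat.cast_le.2 (le_max_right i j)
      rw [div_lt_iff₀ hη] at hj
      nlinarith
    linarith
  have hnT : ∀ i k, i ≤ k → ‖T (Q k).1 i k‖ ≤ K k ∧ ‖T' (Q k).1 i k‖ ≤ K k := fun i k hik => by
    have h1 := (Finset.single_le_sum (f := fun i => ‖T (Q k).1 i k‖ + ‖T' (Q k).1 i k‖)
      (fun i _ => by positivity) (Finset.mem_range.2 (Nat.lt_succ_of_le hik))).trans (hKB k)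
    exact ⟨le_trans (le_add_of_nonneg_right (norm_nonneg _)) h1,
      le_trans (le_add_of_nonneg_left (norm_nonneg _)) h1⟩
  have cyc : ∀ (p : H) (η : ℝ), 0 < η → ∃ x ∈ M, ‖x w - p‖ ≤ η := fun p η hη => by
    obtain ⟨i, k, hik, h⟩ := dense p η hη
    refine ⟨T (Q k).1 i k, hTm _ _ _, ?_⟩
    have h1 := wit i k _ (hTe (Q k).1 i k) (hnT i k hik).1
    exact (norm_sub_le_norm_sub_add_norm_sub _ (ξ i) _).trans (by linarith)
  have cyc' : ∀ (p : H) (η : ℝ), 0 < η → ∃ y ∈ M.commutant, ‖y w - p‖ ≤ η := fun p η hη => by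
    obtain ⟨i, k, hik, h⟩ := dense p η hη
    refine ⟨T' (Q k).1 i k, hTm' _ _ _, ?_⟩
    have h1 := wit i k _ (hTe' (Q k).1 i k) (hnT i k hik).2
    exact (norm_sub_le_norm_sub_add_norm_sub _ (ξ i) _).trans (by linarith)
  have sep : ∀ x ∈ M, x w = 0 → x = 0 := fun x hx h0 => ContinuousLinearMap.ext fun p => by
    refine norm_le_zero_iff.1 (le_of_forall_pos_le_add fun η hη => ?_)
    obtain ⟨y, hy, hyp⟩ := cyc' p (η / (‖x‖ + 1)) (by positivity)
    have e : x p = -(x (y w - p)) := by rw [map_sub, comm_app hx hy, h0, map_zero]; simp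
    rw [e, norm_neg, zero_add]
    refine (x.le_opNorm_of_le hyp).trans ?_
    rw [← mul_div_assoc, div_le_iff₀ (by positivity)]
    nlinarith [norm_nonneg x]
  have hmono : ∀ k, (Q k).1.P ⊆ (Q (k + 1)).1.P := fun k => hFP k (Q k)
  have hmono' : ∀ k m, k ≤ m → (Q k).1.P ⊆ (Q m).1.P := fun k m hkm => by
    induction m, hkm using Nat.le_induction with
    | base => exact Finset.Subset.refl _
    | succ m _ ih => exact ih.trans (hmono m)
  refine ⟨w, fun k => (Q k).1.P, ⟨⟨?_, cyc, sep⟩, fun k => (Q k).1.one_P,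
    fun k g hg h hh => (Q k).1.mul_P hg hh, fun k g hg => (Q k).1.star_P hg,
    fun k g hg => (Q k).1.unit_P hg, hmono, fun k g hg => (Q k).1.mem_P hg,
    fun k g hg x hx => ?_, fun x hx hxc => ?_⟩⟩
  · exact tendsto_nhds_unique (hw.norm.congr fun k => ((Q k).1.vec_cs hcs).norm) tendsto_const_nhds
  · refine tendsto_nhds_unique (hw.inner (𝕜 := ℂ) (((g.continuous.comp x.continuous).tendsto w).comp hw))
      ((hw.inner (𝕜 := ℂ) (((x.continuous.comp g.continuous).tendsto w).comp hw)).congr' ?_)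
    filter_upwards [eventually_ge_atTop k] with m hm
    exact (wit_central ((Q m).1.wit_P (hmono' k m hm hg)) hx).symm
  -- irreducibility
  refine mem_commutant_of_parts fun a ha => ?_
  obtain ⟨ham, has, hac⟩ : a ∈ M ∧ star a = a ∧ ∀ k, ∀ g ∈ (Q k).1.P, Commute g a := by
    have hs : ∀ k, ∀ g ∈ (Q k).1.P, Commute g (star x) := fun k g hg => by
      have := (hxc k _ ((Q k).1.star_P hg)).star_star
      rwa [star_star] at this
    rcases ha with rfl | rfl
    · exact ⟨add_mem hx (star_mem hx), by rw [star_add, star_star, add_comm],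
        fun k g hg => (hxc k g hg).add_right (hs k g hg)⟩
    · exact ⟨M.toStarSubalgebra.smul_mem (sub_mem hx (star_mem hx)) _,
        by rw [star_smul, star_sub, star_star, Complex.star_def, Complex.conj_I, neg_smul,
          ← smul_neg, neg_sub],
        fun k g hg => ((hxc k g hg).sub_right (hs k g hg)).smul_right _⟩
  have near : ∀ η : ℝ, 0 < η → ∃ z, InCentre M z ∧ ‖(a - z) w‖ ≤ η := by
    intro η hη
    obtain ⟨R, hR⟩ := hXd a ham has
    obtain ⟨i, hiR, haR, hi⟩ := hR w (η / 2) (half_pos hη)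
    have hR0 : 0 ≤ R := (norm_nonneg a).trans haR
    obtain ⟨j, hj⟩ := exists_nat_gt (2 * (8 * R + 1) / η)
    set k := Nat.pair i j
    have hjk : (j : ℝ) ≤ k := Nat.cast_le.2 (Nat.right_le_pair i j)
    obtain ⟨z, hz, hzn, hze⟩ := hFf k (Q k) a ham (hac (k + 1))
    simp only [k, Nat.unpair_pair] at hzn hze
    rw [← hQ] at hze
    refine ⟨z, hz, ?_⟩
    have hdist := hwd1 (k + 1)
    have h1 : ‖(a - z) w‖ ≤ ‖(a - z) (v (k + 1))‖ + 2 * R * ‖w - v (k + 1)‖ := by
      have e : (a - z) w = (a - z) (v (k + 1)) + (a - z) (w - v (k + 1)) := by rw [map_sub]; abel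
      rw [e]
      refine (norm_add_le _ _).trans (add_le_add_right ?_ _)
      refine ((a - z).le_opNorm _).trans (mul_le_mul_of_nonneg_right ?_ (norm_nonneg _))
      linarith [norm_sub_le a z]
    have h2 : ‖(a - X i) (v (k + 1))‖ ≤ η / 2 + 2 * R * ‖w - v (k + 1)‖ := by
      have e : (a - X i) (v (k + 1)) = -((X i - a) w) + (a - X i) (v (k + 1) - w) := by
        rw [map_sub]; simp only [sub_apply]; abel
      rw [e]
      refine (norm_add_le _ _).trans (add_le_add (by rw [norm_neg]; exact hi) ?_)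
      refine ((a - X i).le_opNorm _).trans ?_
      rw [norm_sub_rev w]
      refine mul_le_mul_of_nonneg_right ?_ (norm_nonneg _)
      linarith [norm_sub_le a (X i)]
    have h3 : 4 * R * ‖w - v (k + 1)‖ + ((k : ℝ) + 1)⁻¹ ≤ η / 2 := by
      have h4 : ‖w - v (k + 1)‖ ≤ 2 / ((k : ℝ) + 1) := hdist.trans
        (div_le_div_of_nonneg_left zero_le_two (by positivity) (by push_cast; linarith))
      refine (add_le_add_left (mul_le_mul_of_nonneg_left h4 (by positivity)) _).trans ?_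
      rw [inv_eq_one_div, ← mul_div_assoc, ← add_div, div_le_iff₀ (by positivity)]
      rw [div_lt_iff₀ hη] at hj
      nlinarith
    change ‖(a - z) (v (k + 1))‖ ≤ ‖(a - X i) (v (k + 1))‖ + _ at hze
    linarith
  refine VonNeumannAlgebra.mem_commutant_iff.2 fun y hy => ?_
  have key : ∀ b ∈ M.commutant, ⟪b w, (a * y - y * a) w⟫_ℂ = 0 := by
    intro b hb
    refine norm_le_zero_iff.1 (le_of_forall_pos_le_add fun η hη => ?_)
    rw [zero_add]
    set C := (‖b‖ + 1) * ((‖y‖ + 1) * (‖w‖ + 1)) with hC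
    have hC0 : 0 < C := by positivity
    obtain ⟨z, hz, hze⟩ := near (η / (2 * C)) (by positivity)
    have hzc : ∀ u ∈ M, z * u = u * z := fun u hu =>
      (VonNeumannAlgebra.mem_commutant_iff.1 hz.2 u hu).symm
    have hn : ‖(a - star z) w‖ = ‖(a - z) w‖ := by
      have e : a - star z = star (a - z) := by rw [star_sub, has]
      rw [e]
      refine norm_star_apply_of_comm ?_ w
      rw [star_sub, has, sub_mul, sub_mul, mul_sub, mul_sub, mul_sub, mul_sub, hzc a ham,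
        hzc (star z) (star_mem hz.1)]
      have h5 : star z * a = a * star z :=
        (VonNeumannAlgebra.mem_commutant_iff.1 (star_mem hz.2) a ham).symm
      rw [h5]
      abel
    have e : ⟪b w, (a * y - y * a) w⟫_ℂ =
        ⟪b ((a - z) w), y w⟫_ℂ - ⟪b w, y ((a - star z) w)⟫_ℂ := by
      have h6 : ⟪b (a w), y w⟫_ℂ = ⟪b w, a (y w)⟫_ℂ := by
        rw [← comm_app ham hb, ← ContinuousLinearMap.adjoint_inner_right,
          ← ContinuousLinearMap.star_eq_adjoint, has]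
      have h7 : ⟪b (z w), y w⟫_ℂ = ⟪b w, y (star z w)⟫_ℂ := by
        rw [← comm_app hz.1 hb, ← ContinuousLinearMap.adjoint_inner_right,
          ← ContinuousLinearMap.star_eq_adjoint, comm_app hy (star_mem hz.2)]
      simp only [sub_apply, mul_apply_eq_comp, map_sub, inner_sub_left, inner_sub_right, h6, h7]
      ring
    rw [e]
    refine (norm_sub_le _ _).trans ((add_le_add (norm_inner_le_norm _ _) (norm_inner_le_norm _ _)).trans ?_)
    have h8 : ∀ (s t : H) (p q : H →L[ℂ] H), ‖s‖ ≤ η / (2 * C) → ‖t‖ ≤ ‖w‖ →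
        (‖p‖ + 1) * ((‖q‖ + 1) * (‖w‖ + 1)) = C → ‖p s‖ * ‖q t‖ ≤ η / 2 := by
      intro s t p q hs ht he
      refine (mul_le_mul (p.le_opNorm_of_le hs) (q.le_opNorm_of_le ht) (norm_nonneg _)
        (by positivity)).trans ?_
      have hpq : ‖p‖ * (‖q‖ * ‖w‖) ≤ C := by
        rw [← he]
        refine mul_le_mul (by linarith) ?_ (by positivity) (by positivity)
        exact mul_le_mul (by linarith) (by linarith) (norm_nonneg _) (by positivity)
      calc ‖p‖ * (η / (2 * C)) * (‖q‖ * ‖w‖) = (η / (2 * C)) * (‖p‖ * (‖q‖ * ‖w‖)) := by ring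
        _ ≤ (η / (2 * C)) * C := mul_le_mul_of_nonneg_left hpq (by positivity)
        _ = η / 2 := by field_simp
    have p1 := h8 ((a - z) w) w b y hze le_rfl rfl
    have p2 := h8 ((a - star z) w) w y b (hn.le.trans hze) le_rfl (by rw [hC]; ring)
    rw [mul_comm] at p2
    linarith
  have h0 : (a * y - y * a) w = 0 := by
    refine (inner_self_eq_zero (𝕜 := ℂ)).1 (norm_le_zero_iff.1 (le_of_forall_pos_le_add fun η hη => ?_))
    set u := (a * y - y * a) w
    obtain ⟨b, hb, hbu⟩ := cyc' u (η / (‖u‖ + 1)) (by positivity)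
    have e : ⟪u, u⟫_ℂ = -⟪b w - u, u⟫_ℂ := by rw [inner_sub_left, key b hb]; simp
    rw [e, norm_neg, zero_add]
    refine (norm_inner_le_norm _ _).trans ((mul_le_mul_of_nonneg_right hbu (norm_nonneg _)).trans ?_)
    rw [div_mul_eq_mul_div, div_le_iff₀ (by positivity)]
    nlinarith [norm_nonneg u]
  exact (sub_eq_zero.1 (sep _ (sub_mem (mul_mem ham hy) (mul_mem hy ham)) h0)).symm

end Vale.Agent.P096.III.Frame
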