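import Vale.Agent.P096.III.Frame.Slots
import Vale.Agent.P096.III.Pin.Partner

/-!
# P096, type III Frame: the vector moved by one unitary

`vec Ω V c = V* c Ω` is cyclic and separating, and `V* g V` centralises it exactly when `g` has a
witness in the commutant at `Ω`.
-/

namespace Vale.Agent.P096.III.Frame

open scoped InnerProductSpace Topology
open Vale.Agent.P132 (IsCS)

universe u

variable {H : Type u} [NormedAddCommGroup H] [InnerProductSpace ℂ H] [CompleteSpace H]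
  {M : VonNeumannAlgebra H} {Ω : H}

theorem comm_app {g y : H →L[ℂ] H} (hg : g ∈ M) (hy : y ∈ M.commutant) (v : H) :
    g (y v) = y (g v) :=
  congrArg (fun f : H →L[ℂ] H => f v) (VonNeumannAlgebra.mem_commutant_iff.1 hy g hg)

theorem star_app_app {u : H →L[ℂ] H} (hu : u ∈ unitary (H →L[ℂ] H)) (v : H) :
    star u (u v) = v := by
  rw [← mul_apply_eq_comp, Unitary.star_mul_self_of_mem hu, one_apply_eq_self]

theorem app_star_app {u : H →L[ℂ] H} (hu : u ∈ unitary (H →L[ℂ] H)) (v : H) :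
    u (star u v) = v := by
  rw [← mul_apply_eq_comp, Unitary.mul_star_self_of_mem hu, one_apply_eq_self]

theorem norm_app {u : H →L[ℂ] H} (hu : u ∈ unitary (H →L[ℂ] H)) (v : H) : ‖u v‖ = ‖v‖ :=
  Unitary.norm_map (⟨u, hu⟩ : unitary (H →L[ℂ] H)) v

/-- A witness in the commutant. -/
def Wit (M : VonNeumannAlgebra H) (Ω : H) (g : H →L[ℂ] H) : Prop :=
  ∃ g' ∈ M.commutant, g Ω = g' Ω ∧ star g Ω = star g' Ω

theorem wit_one : Wit M Ω 1 := ⟨1, one_mem _, rfl, rfl⟩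

theorem wit_mul {g h : H →L[ℂ] H} (hg : g ∈ M) (hh : h ∈ M) (h₁ : Wit M Ω g) (h₂ : Wit M Ω h) :
    Wit M Ω (g * h) := by
  obtain ⟨g', hg', e₁, s₁⟩ := h₁
  obtain ⟨h', hh', e₂, s₂⟩ := h₂
  refine ⟨h' * g', mul_mem hh' hg', ?_, ?_⟩
  · rw [mul_apply_eq_comp, mul_apply_eq_comp, e₂, comm_app hg hh', e₁]
  · rw [star_mul, star_mul, mul_apply_eq_comp, mul_apply_eq_comp, s₁,
      comm_app (star_mem hh) (star_mem hg'), s₂]

theorem wit_central {g x : H →L[ℂ] H} (h : Wit M Ω g) (hx : x ∈ M) :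
    ⟪Ω, g (x Ω)⟫_ℂ = ⟪Ω, x (g Ω)⟫_ℂ := by
  obtain ⟨g', hg', e, s⟩ := h
  rw [← ContinuousLinearMap.adjoint_inner_left g, ← ContinuousLinearMap.star_eq_adjoint, s,
    ContinuousLinearMap.star_eq_adjoint, ContinuousLinearMap.adjoint_inner_left, e,
    comm_app hx hg']

theorem wit_norm (hcs : IsCS M Ω) {g y : H →L[ℂ] H} (hg : g ∈ M)
    (hu : g ∈ unitary (H →L[ℂ] H)) (h : Wit M Ω g) (hy : y ∈ M) :
    ‖(g * y * star g) Ω‖ = ‖y Ω‖ := by
  obtain ⟨g', hg', e, s⟩ := h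
  have h1 : g' (star g' Ω) = Ω := by
    rw [← s, ← comm_app (star_mem hg) hg', ← e, star_app_app hu]
  have h2 : ∀ v, g' (star g' v) = v := fun v => by
    have hd : Dense {w : H | ∃ x ∈ M, x Ω = w} := fun w => by
      rw [Metric.mem_closure_iff]
      intro e he
      obtain ⟨x, hx, hxw⟩ := hcs.cyclic w (e / 2) (half_pos he)
      exact ⟨x Ω, ⟨x, hx, rfl⟩, by rw [dist_comm, dist_eq_norm]; linarith⟩
    have hcl : IsClosed {w : H | g' (star g' w) = w} := isClosed_eq (by fun_prop) continuous_id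
    refine (hd.closure_eq ▸ closure_minimal (t := {w : H | g' (star g' w) = w}) ?_ hcl)
      (Set.mem_univ v)
    rintro _ ⟨x, hx, rfl⟩
    show g' (star g' (x Ω)) = x Ω
    rw [← comm_app hx (star_mem hg'), ← comm_app hx hg', h1]
  rw [mul_apply_eq_comp, mul_apply_eq_comp, norm_app hu, s, comm_app hy (star_mem hg'),
    ← pow_left_inj₀ (norm_nonneg _) (norm_nonneg _) two_ne_zero]
  have e2 : ⟪star g' (y Ω), star g' (y Ω)⟫_ℂ = ⟪y Ω, y Ω⟫_ℂ := by
    rw [ContinuousLinearMap.star_eq_adjoint, ContinuousLinearMap.adjoint_inner_left,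
      ← ContinuousLinearMap.star_eq_adjoint, h2]
  rw [inner_self_eq_norm_sq_to_K, inner_self_eq_norm_sq_to_K] at e2
  exact_mod_cast e2

/-- `V* c Ω`. -/
noncomputable def vec (Ω : H) (V c : H →L[ℂ] H) : H := star V (c Ω)

variable {V c : H →L[ℂ] H}

theorem apply_vec (hV : V ∈ M) (hc : c ∈ M.commutant) {y : H →L[ℂ] H} (hy : y ∈ M) :
    y (vec Ω V c) = c ((y * star V) Ω) := by
  rw [vec, ← mul_apply_eq_comp, comm_app (mul_mem hy (star_mem hV)) hc]

theorem norm_apply_vec (hV : V ∈ M) (hu : V ∈ unitary (H →L[ℂ] H)) (hc : c ∈ M.commutant)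
    (hcu : c ∈ unitary (H →L[ℂ] H)) {y : H →L[ℂ] H} (hy : y ∈ M) :
    ‖y (vec Ω V c)‖ = ‖(V * y * star V) Ω‖ := by
  rw [apply_vec hV hc hy, norm_app hcu, mul_apply_eq_comp, mul_apply_eq_comp, mul_apply_eq_comp,
    norm_app hu]

theorem vec_cs (hcs : IsCS M Ω) (hV : V ∈ M) (hu : V ∈ unitary (H →L[ℂ] H))
    (hc : c ∈ M.commutant) (hcu : c ∈ unitary (H →L[ℂ] H)) : IsCS M (vec Ω V c) where
  norm := by rw [vec, norm_app (Unitary.star_mem hu), norm_app hcu, hcs.norm]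
  cyclic ξ η hη := by
    obtain ⟨x, hx, hxe⟩ := hcs.cyclic (star c ξ) η hη
    refine ⟨x * V, mul_mem hx hV, le_trans (le_of_eq ?_) hxe⟩
    rw [apply_vec hV hc (mul_mem hx hV), mul_assoc, Unitary.mul_star_self_of_mem hu, mul_one,
      ← norm_app hcu (x Ω - _), map_sub, app_star_app hcu]
  separating x hx h0 := by
    rw [apply_vec hV hc hx] at h0
    have h1 : star c (c ((x * star V) Ω)) = star c 0 := by rw [h0]
    rw [star_app_app hcu, map_zero] at h1
    have h2 := hcs.separating _ (mul_mem hx (star_mem hV)) h1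
    have h3 := congrArg (fun T => T * V) h2
    simpa [mul_assoc, Unitary.star_mul_self_of_mem hu] using h3

theorem vec_cyclic' (hcs : IsCS M Ω) (hV : V ∈ M) (hu : V ∈ unitary (H →L[ℂ] H))
    (hc : c ∈ M.commutant) (hcu : c ∈ unitary (H →L[ℂ] H)) (ξ : H) {η : ℝ} (hη : 0 < η) :
    ∃ y ∈ M.commutant, ‖y (vec Ω V c) - ξ‖ ≤ η := by
  have hd := Pin.dense_commutant hcs (V ξ)
  rw [Pin.orbit, ← SetLike.mem_coe, Submodule.topologicalClosure_coe, Metric.mem_closure_iff] at hd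
  obtain ⟨_, ⟨x, rfl⟩, hxe⟩ := hd η hη
  rw [dist_comm, dist_eq_norm] at hxe
  have hm := mul_mem x.2 (star_mem hc)
  refine ⟨(x : H →L[ℂ] H) * star c, hm, le_trans (le_of_eq ?_) hxe.le⟩
  rw [vec, ← comm_app (star_mem hV) hm, mul_apply_eq_comp, star_app_app hcu, ← norm_app hu,
    map_sub, app_star_app hu]
  rfl

theorem wit_vec (hV : V ∈ M) (hu : V ∈ unitary (H →L[ℂ] H)) (hc : c ∈ M.commutant)
    (hcu : c ∈ unitary (H →L[ℂ] H)) {g : H →L[ℂ] H} (hg : g ∈ M) (h : Wit M Ω g) :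
    Wit M (vec Ω V c) (star V * g * V) := by
  obtain ⟨g', hg', e, s⟩ := h
  have key : ∀ (a a' : H →L[ℂ] H), a ∈ M → a' ∈ M.commutant → a Ω = a' Ω →
      (star V * a * V) (vec Ω V c) = (c * a' * star c) (vec Ω V c) := fun a a' ha ha' he => by
    simp only [vec, mul_apply_eq_comp]
    rw [app_star_app hu, comm_app ha hc, he, ← comm_app (star_mem hV) (star_mem hc),
      star_app_app hcu, ← comm_app (star_mem hV) ha', ← comm_app (star_mem hV) hc]
  refine ⟨c * g' * star c, mul_mem (mul_mem hc hg') (star_mem hc), key g g' hg hg' e, ?_⟩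
  simp only [star_mul, star_star, ← mul_assoc]
  exact key _ _ (star_mem hg) (star_mem hg') s

/-- The move of the vector in one step. -/
theorem dist_vec (hu : V ∈ unitary (H →L[ℂ] H)) (hc : c ∈ M.commutant)
    (hcu : c ∈ unitary (H →L[ℂ] H)) {W c₁ : H →L[ℂ] H} (hW : W ∈ M)
    (hWu : W ∈ unitary (H →L[ℂ] H)) :
    ‖vec Ω (W * V) (c * c₁) - vec Ω V c‖ = ‖W Ω - c₁ Ω‖ := by
  have e : vec Ω (W * V) (c * c₁) = star V (c (star W (c₁ Ω))) := by
    rw [vec, star_mul, mul_apply_eq_comp, mul_apply_eq_comp, comm_app (star_mem hW) hc]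
  rw [e, vec, ← map_sub, norm_app (Unitary.star_mem hu), ← map_sub, norm_app hcu,
    ← norm_app hWu, map_sub, app_star_app hWu, norm_sub_rev]

end Vale.Agent.P096.III.Frame
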